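import Vale.Agent.P106.U.H875.Basic

/-!
# P106 / U / H875 : mixtures (helper875)

* `val_mix`, `Dd_mix` : value and deficit given the letter `(C, E)` are averages over the values of `E`.
* `X_mix` : `X_(C,E) = ∑ P(E = z) X_(P | E = z)` (equality).
* `Ph` : `X(h) - X(0) - N D(h)`; `Ph_le_mix`, `exists_value`, `weight_bad` : selection.
-/

set_option autoImplicit false

namespace Vale.Agent.P106.U

open Finset Vale.Agent.P127 Vale.Agent.P127.Stk Vale.Agent.P127.U Vale.Agent.P106.W Vale.Agent.P106.K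
open Vale.Agent.P127.U.JSB

variable {Ω : Type} [Fintype Ω] {γ δ : Type} {c lam : ℝ} {P : Law Ω} {l : Ω → Ry} {t : Ω → ℝ}
  {C : Ω → γ} {L a : ℕ}

/-- the average of a function over the values of `E` -/
theorem ex_sum (P : Law Ω) (E : Ω → δ) (f : Ω → ℝ) :
    P.ex f = ∑ z ∈ img E, P.pr E z * (P.cond E z).ex f := by
  have h : ∀ ω, ∑ z ∈ img E, P.pr E z * (P.cond E z).w ω = P.w ω := fun ω => cond_avg P E ω
  unfold Law.ex
  simp only [Finset.mul_sum]
  rw [Finset.sum_comm]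
  refine Finset.sum_congr rfl fun ω _ => ?_
  rw [← h ω, Finset.sum_mul]
  exact Finset.sum_congr rfl fun z _ => by ring

theorem val_mix (E : Ω → δ) (W : Ω → Cbx) :
    val lam P l t (fun ω => (C ω, E ω)) a W =
      ∑ z ∈ img E, P.pr E z * val lam (P.cond E z) l t C a W := by
  unfold val
  have h1 := hc_cond_sum P l (fun ω => (W ω, fl1 a (t ω), C ω)) E
  have h2 := ex_sum P E (fun ω => (3 + lam) * Real.log (W ω).u2 + (1 - lam) * Real.log (W ω).u1)
  have h3 : Stk.hc P l (fun ω => (W ω, fl1 a (t ω), C ω, E ω)) =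
      Stk.hc P l (fun ω => ((W ω, fl1 a (t ω), C ω), E ω)) := by
    refine le_antisymm (Stk.hc_mono_right P l ?_) (Stk.hc_mono_right P l ?_)
    · intro ω ω' _ _ e
      simp only [Prod.mk.injEq] at e ⊢
      tauto
    · intro ω ω' _ _ e
      simp only [Prod.mk.injEq] at e ⊢
      tauto
  rw [h3, h1, h2]
  simp only [mul_sub, mul_add, Finset.sum_sub_distrib, Finset.sum_add_distrib]
  rw [← Finset.sum_mul, P.sum_pr_image E, one_mul]

theorem Dd_mix (E : Ω → δ) :
    Dd P l t (fun ω => (C ω, E ω)) a = ∑ z ∈ img E, P.pr E z * Dd (P.cond E z) l t C a := by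
  unfold Dd
  have h1 := hc_cond_sum P (fun ω => fl1 a (t ω)) (fun ω => (l ω, C ω)) E
  have h3 : Stk.hc P (fun ω => fl1 a (t ω)) (fun ω => (l ω, C ω, E ω)) =
      Stk.hc P (fun ω => fl1 a (t ω)) (fun ω => ((l ω, C ω), E ω)) := by
    refine le_antisymm (Stk.hc_mono_right P _ ?_) (Stk.hc_mono_right P _ ?_)
    · intro ω ω' _ _ e
      simp only [Prod.mk.injEq] at e ⊢
      tauto
    · intro ω ω' _ _ e
      simp only [Prod.mk.injEq] at e ⊢
      tauto
  rw [h3, h1]
  simp only [mul_sub, Finset.sum_sub_distrib]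
  rw [← Finset.sum_mul, P.sum_pr_image E, one_mul]

/-- the conditioned law of an extension is an extension of the conditioned law -/
theorem cond_ext {Ω' : Type} [Fintype Ω'] {P' : Law Ω'} {π : Ω' → Ω}
    (h : ∀ ω, P'.pr π ω = P.w ω) (E : Ω → δ) (z : δ) (hz : 0 < P.pr E z) :
    ∀ ω, (P'.cond (fun ω => E (π ω)) z).pr π ω = (P.cond E z).w ω := by
  classical
  have h1 : P'.pr (fun ω => E (π ω)) z = P.pr E z := Stk.pr_law_aux P' P π h E z
  have hz' : 0 < P'.pr (fun ω => E (π ω)) z := by rw [h1]; exact hz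
  intro ω
  rw [P'.cond_pr _ _ hz', P.cond_w _ _ hz, h1]
  have h2 : P'.pr (fun ω' => (π ω', E (π ω'))) (ω, z) = P.pr (fun ω' => (ω', E ω')) (ω, z) :=
    Stk.pr_law_aux P' P π h (fun ω' => (ω', E ω')) (ω, z)
  rw [h2]
  split_ifs with h3
  · congr 1
    rw [← Stk.pr_id P ω]
    unfold Law.pr
    refine Finset.sum_congr ?_ fun _ _ => rfl
    ext ω'
    simp only [mem_filter, mem_univ, true_and, Prod.mk.injEq, id]
    constructor
    · exact fun h => h.1
    · rintro rfl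
      exact ⟨rfl, h3⟩
  · have : P.pr (fun ω' => (ω', E ω')) (ω, z) = 0 := by
      unfold Law.pr
      refine Finset.sum_eq_zero fun ω' hω' => ?_
      simp only [mem_filter, mem_univ, true_and, Prod.mk.injEq] at hω'
      exact absurd (hω'.1 ▸ hω'.2) h3
    rw [this, zero_div]

/-- gluing of labels of the conditioned laws -/
theorem glue_lab (E : Ω → δ) (v : δ → ℝ)
    (hv : ∀ z ∈ img E, v z ∈ vSet c lam (P.cond E z) l t C L a) :
    ∑ z ∈ img E, P.pr E z * v z ∈ vSet c lam P l t (fun ω => (C ω, E ω)) L a := by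
  classical
  have hnear := fun z : {z // z ∈ img E} => hv z.1 z.2
  unfold vSet at hnear
  simp only [Set.mem_ofPred_eq] at hnear
  choose Ω' iF Q π W g1 g2 g3 using hnear
  have a0 : ∀ z : {z // z ∈ img E}, 0 ≤ P.pr E z.1 := fun z => P.pr_nonneg _ _
  have a1 : ∑ z : {z // z ∈ img E}, P.pr E z.1 = 1 := by
    rw [Finset.sum_coe_sort (img E) (fun z => P.pr E z)]
    exact P.sum_pr_image E
  set M : Law (Σ z, Ω' z) := sumL (fun z : {z // z ∈ img E} => P.pr E z.1) a0 a1 Q with hM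
  have hMw : ∀ p : (Σ z, Ω' z), M.w p = P.pr E p.1.1 * (Q p.1).w p.2 := fun p => rfl
  set ρ : (Σ z, Ω' z) → Ω := fun p => π p.1 p.2 with hρ
  set W' : (Σ z, Ω' z) → Cbx := fun p => W p.1 p.2 with hW'
  have hpos : ∀ p : (Σ z, Ω' z), 0 < M.w p → 0 < P.pr E p.1.1 ∧ 0 < (Q p.1).w p.2 := by
    intro p hp
    rw [hMw] at hp
    have b1 := P.pr_nonneg E p.1.1
    have b2 := (Q p.1).nn p.2
    constructor
    · rcases b1.eq_or_lt with h2 | h2
      · rw [← h2, zero_mul] at hp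
        exact absurd hp (lt_irrefl 0)
      · exact h2
    · rcases b2.eq_or_lt with h2 | h2
      · rw [← h2, mul_zero] at hp
        exact absurd hp (lt_irrefl 0)
      · exact h2
  have hE : ∀ p : (Σ z, Ω' z), 0 < M.w p → E (ρ p) = p.1.1 := by
    intro p hp
    obtain ⟨b1, b2⟩ := hpos p hp
    refine cond_supp' P E p.1.1 b1 ?_
    rw [← g1 p.1 (ρ p)]
    exact (Q p.1).pr_pos (π p.1) b2
  have hpr : ∀ ω, M.pr ρ ω = P.w ω := by
    intro ω
    rw [hM, sumL_pr]
    have e : ∀ z : {z // z ∈ img E}, (Q z).pr (fun ω' => ρ ⟨z, ω'⟩) ω = (P.cond E z.1).w ω :=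
      fun z => g1 z ω
    simp only [e]
    rw [Finset.sum_coe_sort (img E) (fun z => P.pr E z * (P.cond E z).w ω)]
    exact cond_avg P E ω
  refine ⟨(Σ z, Ω' z), inferInstance, M, ρ, W', hpr, fun p hp => g2 p.1 p.2 (hpos p hp).2, ?_⟩
  -- the value
  have e1 : Stk.hc M (fun p => l (ρ p)) (fun p => (W' p, fl1 a (t (ρ p)), C (ρ p), E (ρ p))) =
      Stk.hc M (fun p => l (ρ p)) (fun p => ((W' p, fl1 a (t (ρ p)), C (ρ p)), p.1)) := by
    refine le_antisymm (Stk.hc_mono_right M _ ?_) (Stk.hc_mono_right M _ ?_)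
    · intro p p' hp hp' e
      simp only [Prod.mk.injEq] at e ⊢
      refine ⟨⟨e.1, e.2.1, e.2.2.1⟩, ?_⟩
      apply Subtype.ext
      rw [← hE p hp, ← hE p' hp']
      exact e.2.2.2
    · intro p p' hp hp' e
      simp only [Prod.mk.injEq] at e ⊢
      exact ⟨e.1.1, e.1.2.1, e.1.2.2, by rw [hE p hp, hE p' hp', e.2]⟩
  have e2 := sumL_hc (a := fun z : {z // z ∈ img E} => P.pr E z.1) (h0 := a0) (h1 := a1)
    (Q := Q) (fun p => l (ρ p)) (fun p => (W' p, fl1 a (t (ρ p)), C (ρ p)))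
  have e3 := sumL_ex (a := fun z : {z // z ∈ img E} => P.pr E z.1) (h0 := a0) (h1 := a1)
    (Q := Q) (fun p => (3 + lam) * Real.log (W' p).u2 + (1 - lam) * Real.log (W' p).u1)
  rw [← hM] at e2 e3
  unfold val
  rw [e1, e2, e3]
  rw [← Finset.sum_coe_sort (img E) (fun z => P.pr E z * v z)]
  have e4 : ∀ z : {z // z ∈ img E}, P.pr E z.1 * v z.1 =
      P.pr E z.1 * Stk.hc (Q z) (fun ω => l (ρ ⟨z, ω⟩))
        (fun ω => (W' ⟨z, ω⟩, fl1 a (t (ρ ⟨z, ω⟩)), C (ρ ⟨z, ω⟩))) +
      P.pr E z.1 * (3 * a * Real.log 2) - P.pr E z.1 * (Q z).ex (fun ω =>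
        (3 + lam) * Real.log (W' ⟨z, ω⟩).u2 + (1 - lam) * Real.log (W' ⟨z, ω⟩).u1) := by
    intro z
    rw [g3 z]
    unfold val
    rw [mul_sub, mul_add]
  rw [Finset.sum_congr rfl fun z _ => e4 z, Finset.sum_sub_distrib, Finset.sum_add_distrib,
    ← Finset.sum_mul, a1, one_mul]

/-- **MIXTURE** : `X` given the letter `(C, E)` is the average of the `X` of the conditioned laws -/
theorem X_mix (hc : 0 ≤ c) (ha : a ≤ L) (h0 : 0 ≤ lam) (h1 : lam ≤ 1) (E : Ω → δ) :
    X c lam P l t (fun ω => (C ω, E ω)) L a =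
      ∑ z ∈ img E, P.pr E z * X c lam (P.cond E z) l t C L a := by
  classical
  refine le_antisymm ?_ ?_
  · refine X_le hc ha fun Ω' _ P' π W g1 g2 => ?_
    rw [val_mix (P := P') (l := fun ω => l (π ω)) (t := fun ω => t (π ω)) (C := fun ω => C (π ω))
      (fun ω => E (π ω)) W]
    have hsub : img (fun ω => E (π ω)) ⊆ img E := by
      intro z hz
      rw [mem_img] at hz ⊢
      obtain ⟨ω, hω⟩ := hz
      exact ⟨π ω, hω⟩
    have hterm : ∀ z, P'.pr (fun ω => E (π ω)) z *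
        val lam (P'.cond (fun ω => E (π ω)) z) (fun ω => l (π ω)) (fun ω => t (π ω))
          (fun ω => C (π ω)) a W ≤ P.pr E z * X c lam (P.cond E z) l t C L a := by
      intro z
      have h2 : P'.pr (fun ω => E (π ω)) z = P.pr E z := Stk.pr_law_aux P' P π g1 E z
      rw [h2]
      rcases (P.pr_nonneg E z).eq_or_lt with h3 | h3
      · rw [← h3, zero_mul, zero_mul]
      · refine mul_le_mul_of_nonneg_left ?_ h3.le
        exact val_le_X (P := P.cond E z) h0 h1 (cond_ext g1 E z h3)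
          (fun ω hω => g2 ω (cond_supp P' _ z hω))
    have h4 : ∑ z ∈ img (fun ω => E (π ω)), P'.pr (fun ω => E (π ω)) z *
        val lam (P'.cond (fun ω => E (π ω)) z) (fun ω => l (π ω)) (fun ω => t (π ω))
          (fun ω => C (π ω)) a W ≤
        ∑ z ∈ img (fun ω => E (π ω)), P.pr E z * X c lam (P.cond E z) l t C L a :=
      Finset.sum_le_sum fun z _ => hterm z
    refine h4.trans ?_
    refine Finset.sum_le_sum_of_subset_of_nonneg hsub fun z _ hz => ?_
    refine mul_nonneg (P.pr_nonneg _ _) ?_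
    refine le_trans ?_ (X_ge_zero (P := P.cond E z) hc ha h0 h1)
    have := Real.log_nonneg (show (1 : ℝ) ≤ 2 by norm_num)
    positivity
  · refine le_of_forall_pos_le_add fun η hη => ?_
    have hz : ∀ z : δ, ∃ v ∈ vSet c lam (P.cond E z) l t C L a,
        X c lam (P.cond E z) l t C L a - η < v := fun z =>
      exists_lt_of_lt_csSup (vSet_ne (lam := lam) (P.cond E z) l t C hc ha)
        (sub_lt_self (X c lam (P.cond E z) l t C L a) hη)
    choose v hv1 hv2 using hz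
    have h2 := le_csSup (vSet_bdd P l t (fun ω => (C ω, E ω)) L a h0 h1)
      (glue_lab (c := c) (lam := lam) (P := P) (l := l) (t := t) (C := C) E v fun z _ => hv1 z)
    have h3 : ∑ z ∈ img E, P.pr E z * X c lam (P.cond E z) l t C L a ≤
        ∑ z ∈ img E, (P.pr E z * v z + P.pr E z * η) := by
      refine Finset.sum_le_sum fun z _ => ?_
      rw [← mul_add]
      exact mul_le_mul_of_nonneg_left (by linarith [hv2 z]) (P.pr_nonneg _ _)
    rw [Finset.sum_add_distrib, ← Finset.sum_mul, P.sum_pr_image E, one_mul] at h3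
    exact h3.trans (add_le_add h2 le_rfl)

/-- the mixture without the letter -/
theorem X_mix_le (hc : 0 ≤ c) (ha : a ≤ L) (h0 : 0 ≤ lam) (h1 : lam ≤ 1) (E : Ω → δ) :
    ∑ z ∈ img E, P.pr E z * X c lam (P.cond E z) l t C L a ≤ X c lam P l t C L a := by
  rw [← X_mix hc ha h0 h1 E]
  exact X_pair_le hc ha h0 h1 E

theorem X_le_mix (hc : 0 ≤ c) (ha : a ≤ L) (h0 : 0 ≤ lam) (h1 : lam ≤ 1) (E : Ω → δ) :
    X c lam P l t C L a ≤
      ∑ z ∈ img E, P.pr E z * X c lam (P.cond E z) l t C L a + Stk.hc P E C := by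
  rw [← X_mix hc ha h0 h1 E]
  exact X_le_add hc ha h0 h1 E

/-! ### the defect -/

/-- `Φ = X(h) - X(0) - N D(h)` -/
noncomputable def Ph (c lam N : ℝ) (P : Law Ω) (l : Ω → Ry) (t : Ω → ℝ) (C : Ω → γ) (L h : ℕ) : ℝ :=
  X c lam P l t C L h - X c lam P l t C L 0 - N * Dd P l t C h

variable {N : ℝ} {h : ℕ}

theorem Ph_mix (hc : 0 ≤ c) (hh : h ≤ L) (h0 : 0 ≤ lam) (h1 : lam ≤ 1) (E : Ω → δ) :
    Ph c lam N P l t (fun ω => (C ω, E ω)) L h =
      ∑ z ∈ img E, P.pr E z * Ph c lam N (P.cond E z) l t C L h := by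
  unfold Ph
  rw [X_mix hc hh h0 h1 E, X_mix hc (Nat.zero_le L) h0 h1 E, Dd_mix E, Finset.mul_sum,
    ← Finset.sum_sub_distrib, ← Finset.sum_sub_distrib]
  exact Finset.sum_congr rfl fun z _ => by ring

/-- conditioning on a letter: `G` costs its entropy given the letter (at the level `h`), and `N` times its entropy given
the ray -/
theorem Ph_le_pair (hc : 0 ≤ c) (hh : h ≤ L) (h0 : 0 ≤ lam) (h1 : lam ≤ 1) (hN : 0 ≤ N) (G : Ω → δ) :
    Ph c lam N P l t C L h ≤ Ph c lam N P l t (fun ω => (C ω, G ω)) L h + Stk.hc P G C +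
      N * Stk.hc P G (fun ω => (l ω, C ω)) := by
  unfold Ph
  have e1 := X_le_add (c := c) (lam := lam) (P := P) (l := l) (t := t) (C := C) hc hh h0 h1 G
  have e2 := X_pair_le (c := c) (lam := lam) (P := P) (l := l) (t := t) (C := C) hc
    (Nat.zero_le L) h0 h1 G
  have e3 := mul_le_mul_of_nonneg_left (Dd_pair_le (P := P) (l := l) (t := t) (C := C) (a := h) G) hN
  linarith

/-- the same, the entropy of `G` is taken given a nearly optimal label `W` of the level `h` -/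
theorem Ph_le_pair_W (hc : 0 ≤ c) (h0 : 0 ≤ lam) (h1 : lam ≤ 1) (hN : 0 ≤ N)
    {Ω' : Type} [Fintype Ω'] {P' : Law Ω'} {π : Ω' → Ω} {W : Ω' → Cbx}
    (g1 : ∀ ω, P'.pr π ω = P.w ω)
    (g2 : ∀ ω, 0 < P'.w ω → LbOk c L h (W ω) (l (π ω)) (t (π ω))) {η : ℝ}
    (g3 : X c lam P l t C L h - η ≤
      val lam P' (fun ω => l (π ω)) (fun ω => t (π ω)) (fun ω => C (π ω)) h W) (G : Ω → δ) :
    Ph c lam N P l t C L h ≤ Ph c lam N P l t (fun ω => (C ω, G ω)) L h + η +
      Stk.hc P' (fun ω => G (π ω)) (fun ω => (W ω, fl1 h (t (π ω)), C (π ω))) +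
      N * Stk.hc P G (fun ω => (l ω, C ω)) := by
  unfold Ph
  have e1 := X_pair_ge (c := c) (lam := lam) (P := P) (l := l) (t := t) (C := C) h0 h1 g1 g2 G
  have e2 := X_pair_le (c := c) (lam := lam) (P := P) (l := l) (t := t) (C := C) hc
    (Nat.zero_le L) h0 h1 G
  have e3 := mul_le_mul_of_nonneg_left (Dd_pair_le (P := P) (l := l) (t := t) (C := C) (a := h) G) hN
  linarith

/-- **SELECTION** : the values `z` of `E` with `Φ_z < s` have weight at most `(U - Φ + cost) / (U - s)` if `Φ_z ≤ U` for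
all `z` -/
theorem weight_bad (hc : 0 ≤ c) (hh : h ≤ L) (h0 : 0 ≤ lam) (h1 : lam ≤ 1) (hN : 0 ≤ N) (E : Ω → δ)
    {U s : ℝ} (hU : ∀ z, 0 < P.pr E z → Ph c lam N (P.cond E z) l t C L h ≤ U) [DecidableEq δ]
    (B : Finset δ) (hB : ∀ z ∈ B, Ph c lam N (P.cond E z) l t C L h ≤ s) :
    (U - s) * ∑ z ∈ B, P.pr E z ≤
      U - Ph c lam N P l t C L h + Stk.hc P E C + N * Stk.hc P E (fun ω => (l ω, C ω)) := by
  classical
  have e1 := Ph_le_pair (c := c) (lam := lam) (N := N) (P := P) (l := l) (t := t) (C := C) hc hh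
    h0 h1 hN E
  rw [Ph_mix hc hh h0 h1 E] at e1
  have e2 : ∑ z ∈ img E, P.pr E z * Ph c lam N (P.cond E z) l t C L h ≤
      ∑ z ∈ img E, (P.pr E z * U - if z ∈ B then P.pr E z * (U - s) else 0) := by
    refine Finset.sum_le_sum fun z _ => ?_
    rcases (P.pr_nonneg E z).eq_or_lt with h3 | h3
    · rw [← h3]
      simp
    · split_ifs with h4
      · have := mul_le_mul_of_nonneg_left (hB z h4) h3.le
        linarith
      · have := mul_le_mul_of_nonneg_left (hU z h3) h3.le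
        linarith
  rw [Finset.sum_sub_distrib, ← Finset.sum_mul, P.sum_pr_image E, one_mul, ← Finset.sum_filter] at e2
  have e3 : ∑ z ∈ B, P.pr E z * (U - s) = ∑ z ∈ (img E).filter (fun z => z ∈ B), P.pr E z * (U - s) := by
    symm
    refine Finset.sum_subset_zero_on_sdiff ?_ ?_ fun _ _ => rfl
    · intro z hz
      exact (Finset.mem_filter.1 hz).2
    · intro z hz
      rw [Finset.mem_sdiff, Finset.mem_filter, not_and] at hz
      have h5 : z ∉ img E := fun h6 => hz.2 h6 hz.1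
      have h6 : P.pr E z = 0 := by
        unfold Law.pr
        refine Finset.sum_eq_zero fun ω hω => absurd (mem_img.2 ⟨ω, ?_⟩) h5
        simpa using hω
      rw [h6, zero_mul]
  rw [← e3, ← Finset.sum_mul, mul_comm _ (U - s)] at e2
  linarith

end Vale.Agent.P106.U
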