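import Vale.Agent.P106.U.H875.Nond
import Vale.Agent.P106.U.H683.SatP

/-!
# P106 / U / H875 : the abstract `(V, Z)`-step (helper875, in the form of helper683's `satP`)

Translations `s (x, x² / 2)`, one copy of the path letter, three copies of the direction.

* `satV` : the block of the position `(V, Z)` is saturated.
-/

set_option autoImplicit false

namespace Vale.Agent.P106.U.H875

open Finset Vale.Agent.P127 Vale.Agent.P127.Stk Vale.Agent.P127.U.Pin Vale.Agent.P127.U.Mic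
open Vale.Agent.P127.U.CellD
open Vale.Agent.P106.TV
open Vale.Agent.P106.U.H683 (q2_pow)

variable {Ω : Type} [Fintype Ω] {S U V Z : Type*}

theorem disp2_le (Sf : U → V → V → ℝ) (d : U) (θ : V) (θs : Fin 1 → V) (xs : Fin 3 → ℝ)
    (hS : ∀ i, |Sf d θ (θs i)| ≤ 1) (hx : ∀ j, 0 ≤ xs j ∧ xs j ≤ 1) (k i : Fin 2) :
    |disp (F2 Sf) f2 d θ θs xs k i| ≤ 1 := by
  have key : ∀ (a : Fin 1) (j l : Fin 3), |F2 Sf d θ (θs a) (xs j) i -
      F2 Sf d θ (θs a) (xs l) i| ≤ 1 := by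
    intro a j l
    obtain ⟨j0, j1⟩ := hx j
    obtain ⟨l0, l1⟩ := hx l
    have h1 : |xs j - xs l| ≤ 1 := by rw [abs_le]; constructor <;> linarith
    have h2 : |xs j ^ 2 / 2 - xs l ^ 2 / 2| ≤ 1 := by
      rw [abs_le]; constructor <;> nlinarith
    have hs := hS a
    fin_cases i
    · show |Sf d θ (θs a) * xs j - Sf d θ (θs a) * xs l| ≤ 1
      rw [← mul_sub, abs_mul]
      exact mul_le_one₀ hs (abs_nonneg _) h1
    · show |Sf d θ (θs a) * (xs j ^ 2 / 2) - Sf d θ (θs a) * (xs l ^ 2 / 2)| ≤ 1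
      rw [← mul_sub, abs_mul]
      exact mul_le_one₀ hs (abs_nonneg _) h2
  exact key _ _ _

theorem num_RV {m g : ℕ} {R : ℝ} (hmg : m ≤ g) (hg1 : 1 ≤ g) (hRr : R = 2 ^ (m + 5 * g + 4)) :
    0 ≤ R * (1 + 2 * Real.log R) ∧ R * (1 + 2 * Real.log R) * 128 ≤ 2 ^ (22 * g) := by
  have hl2 : Real.log 2 ≤ 7 / 10 := by
    have := Real.log_two_lt_d9
    linarith
  have hl20 : 0 < Real.log 2 := Real.log_pos (by norm_num)
  have hg3 : (1 : ℝ) ≤ g := by exact_mod_cast hg1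
  have hlogR : Real.log R ≤ 7 * g := by
    rw [hRr, Real.log_pow]
    have h1 : ((m + 5 * g + 4 : ℕ) : ℝ) ≤ 10 * g := by
      have : m + 5 * g + 4 ≤ 10 * g := by omega
      exact_mod_cast this
    have h2 : (0 : ℝ) ≤ ((m + 5 * g + 4 : ℕ) : ℝ) := Nat.cast_nonneg _
    nlinarith
  have hlR : 0 ≤ Real.log R := by
    rw [hRr, Real.log_pow]; positivity
  have hR0 : (0 : ℝ) ≤ R := by rw [hRr]; positivity
  refine ⟨by positivity, ?_⟩
  have h1 : (1 : ℝ) + 2 * Real.log R ≤ 2 ^ (4 + g) := by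
    have h2 : (g : ℝ) ≤ 2 ^ g := by exact_mod_cast Nat.lt_two_pow_self.le
    rw [pow_add]
    nlinarith
  have h4 : (R : ℝ) ≤ 2 ^ (10 * g) := by
    rw [hRr]
    exact pow_le_pow_right₀ (by norm_num) (by omega)
  have h5 : (R : ℝ) * (1 + 2 * Real.log R) ≤ 2 ^ (10 * g) * 2 ^ (4 + g) :=
    mul_le_mul h4 h1 (by positivity) (by positivity)
  calc (R : ℝ) * (1 + 2 * Real.log R) * 128 ≤ 2 ^ (10 * g) * 2 ^ (4 + g) * 2 ^ 7 := by
        have : (128 : ℝ) ≤ 2 ^ 7 := by norm_num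
        exact mul_le_mul h5 this (by norm_num) (by positivity)
    _ = 2 ^ (10 * g + (4 + g) + 7) := by
        rw [pow_add (2 : ℝ) (10 * g + (4 + g)) 7, pow_add (2 : ℝ) (10 * g) (4 + g)]
    _ ≤ 2 ^ (22 * g) := pow_le_pow_right₀ (by norm_num) (by omega)

theorem num_endV {m : ℕ} {S3 X I H B : ℝ} (hm0 : (1 : ℝ) ≤ m) (hS0 : 0 ≤ S3)
    (hX : 1 - 9 * S3 ≤ X)
    (main : X * (2 * (m * Real.log 2) - 2 * Real.log 21) - I ≤ H) (hI : I ≤ B) (hB : 0 ≤ B)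
    (hH0 : 0 ≤ H) :
    2 * m * Real.log 2 - (7 + 13 * m * S3 + B) ≤ H := by
  have h21 : 2 * Real.log 21 ≤ 7 := by
    have h1 : Real.log 21 ≤ Real.log (2 ^ 5) := Real.log_le_log (by norm_num) (by norm_num)
    rw [Real.log_pow] at h1
    have := Real.log_two_lt_d9
    push_cast at h1
    linarith
  have hl2 : Real.log 2 ≤ 7 / 10 := by
    have := Real.log_two_lt_d9
    linarith
  have hl20 : 0 < Real.log 2 := Real.log_pos (by norm_num)
  rcases le_or_gt (2 * (m * Real.log 2) - 2 * Real.log 21) 0 with hneg | hpos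
  · have : 0 ≤ 13 * (m : ℝ) * S3 := by positivity
    linarith
  · have h1 : (1 - 9 * S3) * (2 * (m * Real.log 2) - 2 * Real.log 21) ≤
        X * (2 * (m * Real.log 2) - 2 * Real.log 21) := mul_le_mul_of_nonneg_right hX hpos.le
    have h2 : 9 * S3 * (2 * (m * Real.log 2) - 2 * Real.log 21) ≤ 13 * m * S3 := by
      have h3 : 2 * (m * Real.log 2) - 2 * Real.log 21 ≤ 14 / 10 * m := by
        have h4 : 0 ≤ Real.log 21 := Real.log_nonneg (by norm_num)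
        nlinarith
      have h5 := mul_le_mul_of_nonneg_left h3 (by positivity : 0 ≤ 9 * S3)
      have h6 : 0 ≤ (m : ℝ) * S3 := by positivity
      nlinarith
    linarith

/-- **THE (V, Z)-STEP** : abstract form -/
theorem satV (P : Law Ω) {D : Ω → U} {Θ : Ω → V} {W : Ω → S} {E : Ω → Z} {e : U → S → ℝ}
    {pi : Ω → Fin 2 → ℝ} {be : V → Ω → Fin 2 → ℝ} {Sf : U → V → V → ℝ} {ρ : ℝ}
    (geo : GeoG P D Θ W E e pi be (F2 Sf) (fun _ => ρ)) {g m : ℕ} (hm : 1 ≤ m) (hmg : m ≤ g)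
    (t y : Ω → ℤ)
    (hS1 : ∀ ω ω', 0 < P.w ω → 0 < P.w ω' → D ω' = D ω → |Sf (D ω) (Θ ω) (Θ ω')| ≤ 1)
    (he1 : ∀ ω ω', 0 < P.w ω → 0 < P.w ω' → D ω' = D ω → 0 ≤ e (D ω) (W ω') ∧ e (D ω) (W ω') ≤ 1)
    (hS : ∀ ω ω', 0 < P.w ω → 0 < P.w ω' → D ω' = D ω → ¬ |t ω - t ω'| ≤ ((1 : ℕ) : ℤ) →
      q2 g ≤ |Sf (D ω) (Θ ω) (Θ ω')|)
    (he : ∀ ω a b, 0 < P.w ω → 0 < P.w a → 0 < P.w b → D a = D ω → D b = D ω →
      ¬ |y a - y b| ≤ ((1 : ℕ) : ℤ) → q2 g ≤ |e (D ω) (W a) - e (D ω) (W b)|)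
    (hρ0 : 0 ≤ ρ) (hρ : 10 * 2 ^ (m + 5 * g + 4) * ρ ≤ 1) {ι₁ ι₂ : ℝ}
    (h1 : mi P (fun ω => e (D ω) (W ω)) E (fun ω => (D ω, Θ ω)) ≤ ι₁) (h2 : mi P Θ W D ≤ ι₂) :
    2 * m * Real.log 2 - (7 + 13 * m * (colp P t D + colp P y D) +
      2 ^ (22 * g) * (Real.sqrt ι₁ + Real.sqrt ι₂)) ≤
    hc P (fun ω => celi 1 (pi ω)) (fun ω => (celi (2 ^ m) (pi ω), (D ω, Θ ω))) := by
  classical
  have hg1 : 1 ≤ g := hm.trans hmg
  set τ : ℝ := q2 (5 * g + 1) with hτ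
  have hτ0 : 0 < τ := q2_pos _
  set R : ℕ := 2 ^ (m + 5 * g + 4) with hRdef
  have hRr : (R : ℝ) = 2 ^ (m + 5 * g + 4) := by rw [hRdef]; push_cast; rfl
  have hcard : Fintype.card (Fin 2) = 2 := Fintype.card_fin 2
  have hL : (1 : ℝ) ≤ 2 ^ m := one_le_pow₀ (by norm_num)
  have hfac : ((2 : ℕ).factorial : ℝ) = 2 := by norm_num [Nat.factorial]
  have main := mstepGL geo f2 f2_inj f2_ne τ 1 (2 ^ m) R hτ0 le_rfl hL (by
      rw [hcard, hfac, hRr, hτ]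
      have e1 : (2 : ℝ) ^ (m + 5 * g + 4) * q2 (5 * g + 1) = 2 ^ (m + 3) := by
        rw [show m + 5 * g + 4 = (m + 3) + (5 * g + 1) by ring, pow_add, mul_assoc, mul_comm
          ((2 : ℝ) ^ (5 * g + 1)), ← mul_assoc, mul_assoc ((2 : ℝ) ^ (m + 3)),
          mul_comm (q2 (5 * g + 1)), q2_mul_pow, mul_one]
      rw [e1, pow_add]
      have : (0 : ℝ) < 2 ^ m := by positivity
      push_cast
      linarith) hρ0 (by
      rw [hcard, hRr]
      push_cast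
      linarith)
  rw [hcard] at main
  -- the weight
  have hX : 1 - 9 * (colp P t D + colp P y D) ≤
      P.ex (avG P D Θ W e (chiG (F2 Sf) f2 τ)) := by
    have k1 := colp_nonneg P t D
    have k2 := colp_nonneg P y D
    have n1 := av2_near P D t 1
    have n2 := av2_near P D y 1
    have hn := nond_union (κ₂ := Fin 1) (κ₃ := Fin 3) P D Θ W e (chiG (F2 Sf) f2 τ)
      (chiG_nonneg _ _ _) (univ : Finset (Fin 4))
      (![Sl.o, Sl.y 0, Sl.y 0, Sl.y 1] : Fin 4 → Sl (Fin 1) (Fin 3))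
      (![Sl.z 0, Sl.y 1, Sl.y 2, Sl.y 2] : Fin 4 → Sl (Fin 1) (Fin 3))
      (by intro b _; fin_cases b <;> simp)
      (![fun ω ω' => |t ω - t ω'| ≤ ((1 : ℕ) : ℤ), fun ω ω' => |y ω - y ω'| ≤ ((1 : ℕ) : ℤ),
        fun ω ω' => |y ω - y ω'| ≤ ((1 : ℕ) : ℤ), fun ω ω' => |y ω - y ω'| ≤ ((1 : ℕ) : ℤ)])
      (![3 * colp P t D, 3 * colp P y D, 3 * colp P y D, 3 * colp P y D])
      ?_ ?_
    · rw [Fin.sum_univ_four] at hn
      simp only [Matrix.cons_val_zero, Matrix.cons_val_one, Matrix.cons_val] at hn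
      linarith
    · intro b _
      norm_num at n1 n2
      fin_cases b
      · exact n1
      · exact n2
      · exact n2
      · exact n2
    · intro ω z x p pz px hb
      have g1 : ¬ |t ω - t (z 0)| ≤ ((1 : ℕ) : ℤ) := hb 0 (mem_univ _)
      have g2 : ¬ |y (x 0) - y (x 1)| ≤ ((1 : ℕ) : ℤ) := hb 1 (mem_univ _)
      have g3 : ¬ |y (x 0) - y (x 2)| ≤ ((1 : ℕ) : ℤ) := hb 2 (mem_univ _)
      have g4 : ¬ |y (x 1) - y (x 2)| ≤ ((1 : ℕ) : ℤ) := hb 3 (mem_univ _)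
      refine le_of_eq ?_
      unfold chiG
      rw [if_pos]
      constructor
      · exact disp2_le Sf (D ω) (Θ ω) (fun i => Θ (z i)) (fun j => e (D ω) (W (x j)))
          (fun i => hS1 ω (z i) p (pz i).1 (pz i).2) (fun j => he1 ω (x j) p (px j).1 (px j).2)
      · rw [det2]
        have s0 := hS ω (z 0) p (pz 0).1 (pz 0).2 g1
        have x01 := he ω (x 0) (x 1) p (px 0).1 (px 1).1 (px 0).2 (px 1).2 g2
        have x02 := he ω (x 0) (x 2) p (px 0).1 (px 2).1 (px 0).2 (px 2).2 g3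
        have x12 := he ω (x 1) (x 2) p (px 1).1 (px 2).1 (px 1).2 (px 2).2 g4
        rw [abs_sub_comm] at x12
        have q0 := q2_pos g
        rw [abs_div, abs_mul, abs_mul, abs_mul, abs_pow,
          abs_of_pos (by norm_num : (0 : ℝ) < 2), le_div_iff₀ (by norm_num)]
        have e1 : τ * 2 = q2 g ^ 2 * q2 g * q2 g * q2 g := by
          have e2 : q2 g ^ 2 * q2 g * q2 g * q2 g = q2 g ^ 5 := by ring
          rw [e2, q2_pow, hτ, q2_add, mul_assoc]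
          have : q2 1 * 2 = 1 := by unfold q2; norm_num
          rw [this, mul_one]
        rw [e1]
        gcongr
  have hgain : gainL 2 1 (2 ^ m) = 2 * (m * Real.log 2) - 2 * Real.log 21 := by
    unfold gainL
    rw [div_one, Real.log_pow]
    norm_num
  rw [hgain] at main
  obtain ⟨hN0, hN⟩ := num_RV hmg hg1 hRr
  have hm0 : (1 : ℝ) ≤ m := by exact_mod_cast hm
  have hI : (R : ℝ) * (1 + (2 : ℕ) * Real.log R) * ((2 : ℕ) *
      (8 * Real.sqrt (mi P (fun ω => e (D ω) (W ω)) E (fun ω => (D ω, Θ ω))) +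
        64 * Real.sqrt (mi P Θ W D))) ≤
      2 ^ (22 * g) * (Real.sqrt ι₁ + Real.sqrt ι₂) := by
    have s1 := Real.sqrt_le_sqrt h1
    have s2 := Real.sqrt_le_sqrt h2
    have s3 := Real.sqrt_nonneg ι₁
    have s4 := Real.sqrt_nonneg ι₂
    have e1 : ((2 : ℕ) : ℝ) * (8 * Real.sqrt (mi P (fun ω => e (D ω) (W ω)) E
        (fun ω => (D ω, Θ ω))) + 64 * Real.sqrt (mi P Θ W D)) ≤
        128 * (Real.sqrt ι₁ + Real.sqrt ι₂) := by
      push_cast
      linarith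
    have e2 : (R : ℝ) * (1 + (2 : ℕ) * Real.log R) = R * (1 + 2 * Real.log R) := by push_cast; ring
    rw [e2]
    calc _ ≤ (R : ℝ) * (1 + 2 * Real.log R) * (128 * (Real.sqrt ι₁ + Real.sqrt ι₂)) :=
          mul_le_mul_of_nonneg_left e1 hN0
      _ = ((R : ℝ) * (1 + 2 * Real.log R) * 128) * (Real.sqrt ι₁ + Real.sqrt ι₂) := by ring
      _ ≤ _ := mul_le_mul_of_nonneg_right hN (add_nonneg s3 s4)
  exact num_endV hm0 (add_nonneg (colp_nonneg P t D) (colp_nonneg P y D)) hX main hI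
    (mul_nonneg (by positivity)
    (add_nonneg (Real.sqrt_nonneg _) (Real.sqrt_nonneg _))) (hc_nonneg _ _ _)

end Vale.Agent.P106.U.H875
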