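import Vale.Agent.P106.U.H20.Defs
import Vale.Agent.P127.U.JS

/-!
# P106 / U / H875 : the functional `X`, basic facts (helper875)

* `val_le_H`, `vSet_bdd`, `vSet_ne`, `val_le_X`, `X_le`, `X_near`.
* `val_law`, `vSet_ext`, `X_ext` : extensions do not change anything.
* `X_mono_C`, `X_congr_C` : coarser / equivalent letters; `X_le_add` : `X_C ≤ X_C' + H(C' | C)`.
* `val_pair` : `val_(C,G)(W) ≥ val_C(W) - H(G | W, t_a, C)`.
-/

set_option autoImplicit false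

namespace Vale.Agent.P106.U

open Vale.Agent.P127 Vale.Agent.P127.Stk Vale.Agent.P127.U Vale.Agent.P106.W Vale.Agent.P106.K
open Vale.Agent.P122.C2 (fn)

variable {Ω : Type} [Fintype Ω] {γ δ : Type} {c lam : ℝ}

/-! ### labels -/

theorem LbOk.size {L a : ℕ} {B : Cbx} {l : Ry} {t : ℝ} (h : LbOk c L a B l t) (h0 : 0 ≤ lam)
    (h1 : lam ≤ 1) : 0 ≤ -((3 + lam) * Real.log B.u2 + (1 - lam) * Real.log B.u1) ∧
      -((3 + lam) * Real.log B.u2 + (1 - lam) * Real.log B.u1) ≤ 4 * ((L : ℝ) - a) * Real.log 2 := by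
  obtain ⟨b, R, hb, hR, hbR, haR⟩ := h.sh
  have hl2 : 0 ≤ Real.log 2 := Real.log_nonneg (by norm_num)
  have e2 : Real.log B.u2 = -(b * Real.log 2) := by
    rw [hb, Real.log_pow, one_div, Real.log_inv]; ring
  have e1 : Real.log B.u1 = -(R * Real.log 2) := by
    rw [hR, Real.log_pow, one_div, Real.log_inv]; ring
  rw [e1, e2]
  have hbR' : (b : ℝ) ≤ R := by exact_mod_cast hbR
  have haR' : (a : ℝ) + R ≤ L := by exact_mod_cast haR
  have hb0 : (0 : ℝ) ≤ b := Nat.cast_nonneg _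
  have e3 : -((3 + lam) * -(b * Real.log 2) + (1 - lam) * -(R * Real.log 2)) =
      ((3 + lam) * b + (1 - lam) * R) * Real.log 2 := by ring
  rw [e3]
  constructor
  · refine mul_nonneg ?_ hl2
    have : (0 : ℝ) ≤ R := Nat.cast_nonneg _
    have h2 : 0 ≤ (1 - lam) * R := mul_nonneg (by linarith) this
    have h3 : 0 ≤ (3 + lam) * b := mul_nonneg (by linarith) hb0
    linarith
  · refine mul_le_mul_of_nonneg_right ?_ hl2
    nlinarith

/-- the ball of level `a` centred at the ray -/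
theorem self_LbOk (hc : 0 ≤ c) {L a : ℕ} (ha : a ≤ L) (l : Ry) (t : ℝ) :
    LbOk c L a ⟨0, 1, 1, 0, 0, (bl a l t).y, (bl a l t).s, (bl a l t).z⟩ l t where
  sh := ⟨0, 0, by norm_num, by norm_num, le_rfl, by omega⟩
  α2 := by simpa using hc
  κ2 := by simpa using hc
  inn := by
    unfold Bin
    simp only [sub_self, mul_zero, Finset.sum_const_zero, add_zero, abs_zero, zero_mul, zero_div,
      sub_zero, ne_eq, OfNat.ofNat_ne_zero, not_false_eq_true, zero_pow]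
    have h0 : fn 0 (0 : Fin 2 → ℝ) = 0 := by
      unfold fn
      simp
    simp only [h0, add_zero, abs_zero]
    refine ⟨fun _ => ?_, fun _ => ?_, ?_, ?_, ?_⟩ <;> first | positivity | skip

/-! ### the value -/

section val

variable {P : Law Ω} {l : Ω → Ry} {t : Ω → ℝ} {C : Ω → γ} {L a : ℕ}

theorem val_le (h0 : 0 ≤ lam) (h1 : lam ≤ 1) {W : Ω → Cbx}
    (hW : ∀ ω, 0 < P.w ω → LbOk c L a (W ω) (l ω) (t ω)) :
    val lam P l t C a W ≤ Stk.hc P l (fun ω => (W ω, fl1 a (t ω), C ω)) + 3 * a * Real.log 2 +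
      4 * ((L : ℝ) - a) * Real.log 2 := by
  unfold val
  have h2 : P.ex (fun ω => -((3 + lam) * Real.log (W ω).u2 + (1 - lam) * Real.log (W ω).u1)) ≤
      P.ex (fun _ => 4 * ((L : ℝ) - a) * Real.log 2) :=
    P.ex_mono fun ω hω => ((hW ω hω).size h0 h1).2
  rw [P.ex_const] at h2
  have h3 : P.ex (fun ω => -((3 + lam) * Real.log (W ω).u2 + (1 - lam) * Real.log (W ω).u1)) =
      -P.ex (fun ω => (3 + lam) * Real.log (W ω).u2 + (1 - lam) * Real.log (W ω).u1) := by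
    have := P.ex_const_mul (-1) (fun ω => (3 + lam) * Real.log (W ω).u2 + (1 - lam) * Real.log (W ω).u1)
    simpa using this
  rw [h3] at h2
  linarith

theorem val_le_H (h0 : 0 ≤ lam) (h1 : lam ≤ 1) {W : Ω → Cbx}
    (hW : ∀ ω, 0 < P.w ω → LbOk c L a (W ω) (l ω) (t ω)) :
    val lam P l t C a W ≤ P.H l + 3 * a * Real.log 2 + 4 * ((L : ℝ) - a) * Real.log 2 := by
  have h2 := val_le (C := C) h0 h1 hW
  have h3 := Stk.hc_le_H P l (fun ω => (W ω, fl1 a (t ω), C ω))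
  linarith

theorem val_ge_zero (h0 : 0 ≤ lam) (h1 : lam ≤ 1) {W : Ω → Cbx}
    (hW : ∀ ω, 0 < P.w ω → LbOk c L a (W ω) (l ω) (t ω)) :
    Stk.hc P l (fun ω => (W ω, fl1 a (t ω), C ω)) + 3 * a * Real.log 2 ≤ val lam P l t C a W := by
  unfold val
  have h2 : P.ex (fun _ => (0 : ℝ)) ≤
      P.ex (fun ω => -((3 + lam) * Real.log (W ω).u2 + (1 - lam) * Real.log (W ω).u1)) :=
    P.ex_mono fun ω hω => ((hW ω hω).size h0 h1).1
  rw [P.ex_const] at h2
  have h3 : P.ex (fun ω => -((3 + lam) * Real.log (W ω).u2 + (1 - lam) * Real.log (W ω).u1)) =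
      -P.ex (fun ω => (3 + lam) * Real.log (W ω).u2 + (1 - lam) * Real.log (W ω).u1) := by
    have := P.ex_const_mul (-1) (fun ω => (3 + lam) * Real.log (W ω).u2 + (1 - lam) * Real.log (W ω).u1)
    simpa using this
  rw [h3] at h2
  linarith

/-- the value does not change on an extension -/
theorem val_law {Ω' : Type} [Fintype Ω'] {P' : Law Ω'} {π : Ω' → Ω} (h : ∀ ω, P'.pr π ω = P.w ω)
    (W : Ω → Cbx) :
    val lam P' (fun ω => l (π ω)) (fun ω => t (π ω)) (fun ω => C (π ω)) a (fun ω => W (π ω)) =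
      val lam P l t C a W := by
  unfold val
  have e1 := Stk.hc_of_law P' P π h l (fun ω => (W ω, fl1 a (t ω), C ω))
  have e2 := Stk.ex_law_aux P' P π h
    (fun ω => (3 + lam) * Real.log (W ω).u2 + (1 - lam) * Real.log (W ω).u1)
  rw [← e1, ← e2]
  rfl

end val

/-! ### the supremum -/

section sup

variable (P : Law Ω) (l : Ω → Ry) (t : Ω → ℝ) (C : Ω → γ) (L a : ℕ)

theorem vSet_bdd (h0 : 0 ≤ lam) (h1 : lam ≤ 1) : BddAbove (vSet c lam P l t C L a) := by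
  refine ⟨P.H l + 3 * a * Real.log 2 + 4 * ((L : ℝ) - a) * Real.log 2, ?_⟩
  rintro v ⟨Ω', _, P', π, W, g1, g2, rfl⟩
  have h3 := val_le_H (C := fun ω => C (π ω)) h0 h1 g2
  have h4 : P'.H (fun ω => l (π ω)) = P.H l := Stk.H_law_aux P' P π g1 l
  rw [h4] at h3
  exact h3

theorem vSet_ne (hc : 0 ≤ c) {L a : ℕ} (ha : a ≤ L) : (vSet c lam P l t C L a).Nonempty :=
  ⟨_, Ω, inferInstance, P, id,
    fun ω => ⟨0, 1, 1, 0, 0, (bl a (l ω) (t ω)).y, (bl a (l ω) (t ω)).s, (bl a (l ω) (t ω)).z⟩,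
    Stk.pr_id P, fun ω _ => self_LbOk hc ha (l ω) (t ω), rfl⟩

variable {P l t C L a}

/-- every label on an extension gives a lower bound -/
theorem val_le_X (h0 : 0 ≤ lam) (h1 : lam ≤ 1) {Ω' : Type} [Fintype Ω'] {P' : Law Ω'} {π : Ω' → Ω}
    {W : Ω' → Cbx} (g1 : ∀ ω, P'.pr π ω = P.w ω)
    (g2 : ∀ ω, 0 < P'.w ω → LbOk c L a (W ω) (l (π ω)) (t (π ω))) :
    val lam P' (fun ω => l (π ω)) (fun ω => t (π ω)) (fun ω => C (π ω)) a W ≤
      X c lam P l t C L a :=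
  le_csSup (vSet_bdd P l t C L a h0 h1) ⟨Ω', inferInstance, P', π, W, g1, g2, rfl⟩

/-- the same on the system itself -/
theorem val_le_X' (h0 : 0 ≤ lam) (h1 : lam ≤ 1) {W : Ω → Cbx}
    (g2 : ∀ ω, 0 < P.w ω → LbOk c L a (W ω) (l ω) (t ω)) :
    val lam P l t C a W ≤ X c lam P l t C L a :=
  val_le_X (C := C) (π := id) h0 h1 (Stk.pr_id P) g2

theorem X_le (hc : 0 ≤ c) (ha : a ≤ L) {b : ℝ}
    (h : ∀ (Ω' : Type) [Fintype Ω'] (P' : Law Ω') (π : Ω' → Ω) (W : Ω' → Cbx),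
      (∀ ω, P'.pr π ω = P.w ω) → (∀ ω, 0 < P'.w ω → LbOk c L a (W ω) (l (π ω)) (t (π ω))) →
      val lam P' (fun ω => l (π ω)) (fun ω => t (π ω)) (fun ω => C (π ω)) a W ≤ b) :
    X c lam P l t C L a ≤ b := by
  refine csSup_le (vSet_ne P l t C hc ha) ?_
  rintro v ⟨Ω', _, P', π, W, g1, g2, rfl⟩
  exact h Ω' P' π W g1 g2

/-- a nearly optimal label -/
theorem X_near (hc : 0 ≤ c) (ha : a ≤ L) {η : ℝ} (hη : 0 < η) :
    ∃ (Ω' : Type) (_ : Fintype Ω') (P' : Law Ω') (π : Ω' → Ω) (W : Ω' → Cbx),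
      (∀ ω, P'.pr π ω = P.w ω) ∧ (∀ ω, 0 < P'.w ω → LbOk c L a (W ω) (l (π ω)) (t (π ω))) ∧
      X c lam P l t C L a - η <
        val lam P' (fun ω => l (π ω)) (fun ω => t (π ω)) (fun ω => C (π ω)) a W := by
  obtain ⟨v, ⟨Ω', i, P', π, W, g1, g2, rfl⟩, h3⟩ := exists_lt_of_lt_csSup
    (vSet_ne (lam := lam) P l t C hc ha) (sub_lt_self (X c lam P l t C L a) hη)
  exact ⟨Ω', i, P', π, W, g1, g2, h3⟩

theorem X_le_H (hc : 0 ≤ c) (ha : a ≤ L) (h0 : 0 ≤ lam) (h1 : lam ≤ 1) :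
    X c lam P l t C L a ≤ P.H l + 3 * a * Real.log 2 + 4 * ((L : ℝ) - a) * Real.log 2 := by
  refine X_le hc ha fun Ω' _ P' π W g1 g2 => ?_
  have h3 := val_le_H (C := fun ω => C (π ω)) h0 h1 g2
  have h4 : P'.H (fun ω => l (π ω)) = P.H l := Stk.H_law_aux P' P π g1 l
  rw [h4] at h3
  exact h3

theorem X_ge_zero (hc : 0 ≤ c) (ha : a ≤ L) (h0 : 0 ≤ lam) (h1 : lam ≤ 1) :
    3 * a * Real.log 2 ≤ X c lam P l t C L a := by
  have h2 := val_le_X' (c := c) (C := C) (P := P) (l := l) (t := t) (L := L) (a := a) h0 h1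
    (fun ω _ => self_LbOk hc ha (l ω) (t ω))
  refine le_trans ?_ h2
  have h3 := val_ge_zero (c := c) (C := C) (P := P) (l := l) (t := t) (L := L) (a := a) h0 h1
    (fun ω _ => self_LbOk hc ha (l ω) (t ω))
  have h4 := Stk.hc_nonneg P l (fun ω => ((⟨0, 1, 1, 0, 0, (bl a (l ω) (t ω)).y,
    (bl a (l ω) (t ω)).s, (bl a (l ω) (t ω)).z⟩ : Cbx), fl1 a (t ω), C ω))
  linarith

/-- extensions of the system: the set of values does not change -/
theorem vSet_ext {Ω' : Type} [Fintype Ω'] {P' : Law Ω'} {π : Ω' → Ω}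
    (h : ∀ ω, P'.pr π ω = P.w ω) :
    vSet c lam P' (fun ω => l (π ω)) (fun ω => t (π ω)) (fun ω => C (π ω)) L a =
      vSet c lam P l t C L a := by
  ext v
  constructor
  · rintro ⟨Ω'', _, P'', π', W, h1, h2, rfl⟩
    refine ⟨Ω'', inferInstance, P'', fun ω => π (π' ω), W, ?_, h2, rfl⟩
    intro ω
    have := Stk.pr_law_aux P'' P' π' h1 π ω
    rw [← h ω, ← this]
    rfl
  · rintro ⟨Ω'', _, P'', π', W, h1, h2, rfl⟩
    obtain ⟨Ω₃, _, Q, π₁, π₂, g1, g2, g3, g4⟩ := Stk.glue_exists P'' P' π' π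
      (fun s => (h1 s).trans (h s).symm)
    have hπ : ∀ ω, π (π₂ ω) = π' (π₁ ω) := fun ω => (g1 ω).symm
    refine ⟨Ω₃, inferInstance, Q, π₂, fun ω => W (π₁ ω), g3, ?_, ?_⟩
    · intro ω hω
      show LbOk c L a (W (π₁ ω)) (l (π (π₂ ω))) (t (π (π₂ ω)))
      rw [hπ ω]
      have hpos : 0 < P''.w (π₁ ω) := by
        rw [← g2]
        exact Q.pr_pos π₁ hω
      exact h2 (π₁ ω) hpos
    · simp only [hπ]
      exact (val_law g2 W).symm

theorem X_ext {Ω' : Type} [Fintype Ω'] {P' : Law Ω'} {π : Ω' → Ω}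
    (h : ∀ ω, P'.pr π ω = P.w ω) :
    X c lam P' (fun ω => l (π ω)) (fun ω => t (π ω)) (fun ω => C (π ω)) L a =
      X c lam P l t C L a := by
  unfold X
  rw [vSet_ext h]

theorem Dd_ext {Ω' : Type} [Fintype Ω'] {P' : Law Ω'} {π : Ω' → Ω}
    (h : ∀ ω, P'.pr π ω = P.w ω) :
    Dd P' (fun ω => l (π ω)) (fun ω => t (π ω)) (fun ω => C (π ω)) a = Dd P l t C a := by
  unfold Dd
  have e1 := Stk.hc_of_law P' P π h (fun ω => fl1 a (t ω)) (fun ω => (l ω, C ω))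
  rw [← e1]
  rfl

/-! ### the letter -/

/-- a function relation on the system holds on extensions -/
theorem Fn_ext {S T : Type*} {Ω' : Type} [Fintype Ω'] {P' : Law Ω'} {π : Ω' → Ω}
    (h : ∀ ω, P'.pr π ω = P.w ω) {A : Ω → S} {B : Ω → T} (hf : Fn P A B) :
    Fn P' (fun ω => A (π ω)) (fun ω => B (π ω)) := by
  intro ω ω' hω hω' e
  refine hf (π ω) (π ω') ?_ ?_ e
  · rw [← h]; exact P'.pr_pos π hω
  · rw [← h]; exact P'.pr_pos π hω'

theorem val_mono_C {C' : Ω → δ} (h : Fn P C C') (W : Ω → Cbx) :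
    val lam P l t C' a W ≤ val lam P l t C a W := by
  unfold val
  have := Stk.hc_mono_right P l (Y := fun ω => (W ω, fl1 a (t ω), C ω))
    (Y' := fun ω => (W ω, fl1 a (t ω), C' ω)) (fun ω ω' hω hω' e => by
      simp only [Prod.mk.injEq] at e ⊢
      exact ⟨e.1, e.2.1, h ω ω' hω hω' e.2.2⟩)
  linarith

/-- a finer letter decreases `X` -/
theorem X_mono_C (hc : 0 ≤ c) (ha : a ≤ L) (h0 : 0 ≤ lam) (h1 : lam ≤ 1) {C' : Ω → δ}
    (h : Fn P C C') : X c lam P l t C' L a ≤ X c lam P l t C L a :=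
  X_le hc ha fun Ω' _ P' π W g1 g2 =>
    (val_mono_C (l := fun ω => l (π ω)) (t := fun ω => t (π ω)) (Fn_ext g1 h) W).trans
      (val_le_X (C := C) h0 h1 g1 g2)

/-- equivalent letters -/
theorem X_congr_C (hc : 0 ≤ c) (ha : a ≤ L) (h0 : 0 ≤ lam) (h1 : lam ≤ 1) {C' : Ω → δ}
    (h : Fn P C C') (h' : Fn P C' C) : X c lam P l t C' L a = X c lam P l t C L a :=
  le_antisymm (X_mono_C hc ha h0 h1 h) (X_mono_C hc ha h0 h1 h')

/-- a letter `G` costs its entropy given the label -/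
theorem val_pair (G : Ω → δ) (W : Ω → Cbx) :
    val lam P l t C a W - Stk.hc P G (fun ω => (W ω, fl1 a (t ω), C ω)) ≤
      val lam P l t (fun ω => (C ω, G ω)) a W := by
  unfold val
  have h1 := Stk.hc_le_add' P l G (fun ω => (W ω, fl1 a (t ω), C ω))
  have h2 : Stk.hc P l (fun ω => (G ω, W ω, fl1 a (t ω), C ω)) ≤
      Stk.hc P l (fun ω => (W ω, fl1 a (t ω), C ω, G ω)) :=
    Stk.hc_mono_right P l (fun ω ω' _ _ e => by
      simp only [Prod.mk.injEq] at e ⊢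
      exact ⟨e.2.1, e.2.2.1, e.2.2.2, e.1⟩)
  linarith

/-- conditioning on a letter decreases `X` -/
theorem X_pair_le (hc : 0 ≤ c) (ha : a ≤ L) (h0 : 0 ≤ lam) (h1 : lam ≤ 1) (G : Ω → δ) :
    X c lam P l t (fun ω => (C ω, G ω)) L a ≤ X c lam P l t C L a :=
  X_mono_C hc ha h0 h1 fun _ _ _ _ e => (Prod.mk.inj e).1

/-- comparison of `X` for two letters -/
theorem X_le_add (hc : 0 ≤ c) (ha : a ≤ L) (h0 : 0 ≤ lam) (h1 : lam ≤ 1) (G : Ω → δ) :
    X c lam P l t C L a ≤ X c lam P l t (fun ω => (C ω, G ω)) L a + Stk.hc P G C := by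
  refine X_le hc ha fun Ω' _ P' π W g1 g2 => ?_
  have h2 := val_pair (lam := lam) (P := P') (l := fun ω => l (π ω)) (t := fun ω => t (π ω))
    (C := fun ω => C (π ω)) (a := a) (fun ω => G (π ω)) W
  have h3 := val_le_X (c := c) (C := fun ω => (C ω, G ω)) (P := P) (l := l) (t := t) (L := L)
    (a := a) h0 h1 g1 g2
  have h4 : Stk.hc P' (fun ω => G (π ω)) (fun ω => (W ω, fl1 a (t (π ω)), C (π ω))) ≤
      Stk.hc P' (fun ω => G (π ω)) (fun ω => C (π ω)) :=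
    Stk.hc_mono_right P' _ (fun ω ω' _ _ e => (Prod.mk.inj (Prod.mk.inj e).2).2)
  have h5 : Stk.hc P' (fun ω => G (π ω)) (fun ω => C (π ω)) = Stk.hc P G C :=
    Stk.hc_of_law P' P π g1 G C
  linarith

/-- if `G` is nearly a function of a nearly optimal label -/
theorem X_pair_ge (h0 : 0 ≤ lam) (h1 : lam ≤ 1) {Ω' : Type} [Fintype Ω'] {P' : Law Ω'} {π : Ω' → Ω}
    {W : Ω' → Cbx} (g1 : ∀ ω, P'.pr π ω = P.w ω)
    (g2 : ∀ ω, 0 < P'.w ω → LbOk c L a (W ω) (l (π ω)) (t (π ω))) (G : Ω → δ) :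
    val lam P' (fun ω => l (π ω)) (fun ω => t (π ω)) (fun ω => C (π ω)) a W -
      Stk.hc P' (fun ω => G (π ω)) (fun ω => (W ω, fl1 a (t (π ω)), C (π ω))) ≤
      X c lam P l t (fun ω => (C ω, G ω)) L a :=
  (val_pair (l := fun ω => l (π ω)) (t := fun ω => t (π ω)) (C := fun ω => C (π ω))
    (fun ω => G (π ω)) W).trans (val_le_X (C := fun ω => (C ω, G ω)) h0 h1 g1 g2)

/-! ### the deficit -/

theorem Dd_pair_ge (G : Ω → δ) : Dd P l t C a ≤ Dd P l t (fun ω => (C ω, G ω)) a := by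
  unfold Dd
  have := Stk.hc_mono_right P (fun ω => fl1 a (t ω)) (Y := fun ω => (l ω, C ω))
    (Y' := fun ω => (l ω, C ω, G ω)) (fun ω ω' _ _ e => by
      simp only [Prod.mk.injEq] at e ⊢
      exact ⟨e.1, e.2.1⟩)
  linarith

theorem Dd_pair_le (G : Ω → δ) :
    Dd P l t (fun ω => (C ω, G ω)) a ≤ Dd P l t C a + Stk.hc P G (fun ω => (l ω, C ω)) := by
  unfold Dd
  have h1 := Stk.hc_le_add' P (fun ω => fl1 a (t ω)) G (fun ω => (l ω, C ω))
  have h2 : Stk.hc P (fun ω => fl1 a (t ω)) (fun ω => (G ω, l ω, C ω)) ≤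
      Stk.hc P (fun ω => fl1 a (t ω)) (fun ω => (l ω, C ω, G ω)) :=
    Stk.hc_mono_right P _ (fun ω ω' _ _ e => by
      simp only [Prod.mk.injEq] at e ⊢
      exact ⟨e.2.1, e.2.2, e.1⟩)
  linarith

theorem Dd_congr_C {C' : Ω → δ} (h : Fn P C C') (h' : Fn P C' C) :
    Dd P l t C' a = Dd P l t C a := by
  unfold Dd
  have h1 := Stk.hc_mono_right P (fun ω => fl1 a (t ω)) (Y := fun ω => (l ω, C ω))
    (Y' := fun ω => (l ω, C' ω)) (fun ω ω' hω hω' e => by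
      simp only [Prod.mk.injEq] at e ⊢
      exact ⟨e.1, h ω ω' hω hω' e.2⟩)
  have h2 := Stk.hc_mono_right P (fun ω => fl1 a (t ω)) (Y := fun ω => (l ω, C' ω))
    (Y' := fun ω => (l ω, C ω)) (fun ω ω' hω hω' e => by
      simp only [Prod.mk.injEq] at e ⊢
      exact ⟨e.1, h' ω ω' hω hω' e.2⟩)
  linarith

end sup

end Vale.Agent.P106.U
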