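import Vale.Agent.P106.U.H875.Mix
import Vale.Agent.P106.U.H416.Defs
import Vale.Agent.P106.U.H127.Mix

/-!
# P106 / U / H875 : calculus of the functional `XX` (helper875, after helper127's `gsup`)

Bounds, near-optimal labels, extensions, letters, mixtures for `XX` (labels with a price `k` for the distance of the shape
to `e` and a reward `La` for the hidden shape).
-/

set_option autoImplicit false
set_option linter.unusedSectionVars false
set_option linter.unusedVariables false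

namespace Vale.Agent.P106.U.H875

open Finset Vale.Agent.P127 Vale.Agent.P127.Stk Vale.Agent.P127.U Vale.Agent.P106.W Vale.Agent.P106.K
open Vale.Agent.P127.U.JSB Vale.Agent.P106.U.H127 Vale.Agent.P106.U

variable {Ω : Type} [Fintype Ω] {γ δ : Type} {c lam k La : ℝ} {P : Law Ω} {l : Ω → Ry} {t : Ω → ℝ}
  {C : Ω → γ} {e : Ω → ℕ × ℕ} {L a : ℕ}

/-- admissibility of a label of level `a` -/
def adX (c : ℝ) (l : Ω → Ry) (t : Ω → ℝ) (L a : ℕ) (ω : Ω) (B : Cbx) : Prop := LbOk c L a B (l ω) (t ω)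

/-- the cost of a label -/
noncomputable def coX (lam k : ℝ) (e : Ω → ℕ × ℕ) (a : ℕ) (ω : Ω) (B : Cbx) : ℝ :=
  (3 + lam) * Real.log B.u2 + (1 - lam) * Real.log B.u1 + k * dsh B (e ω) - 3 * a * Real.log 2

theorem dsh_nonneg (B : Cbx) (e : ℕ × ℕ) : 0 ≤ dsh B e := by
  unfold dsh; positivity

theorem valX_eq {Ω' : Type} [Fintype Ω'] (P' : Law Ω') (π : Ω' → Ω) (W : Ω' → Cbx) :
    valX lam k La P' (fun ω => l (π ω)) (fun ω => t (π ω)) (fun ω => C (π ω)) a (fun ω => e (π ω)) W =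
      gval La shp (coX lam k e a) l (fun ω => (fl1 a (t ω), C ω)) (fun ω => (l ω, fl1 a (t ω), C ω)) P' π W := by
  have h1 : P'.ex (fun ω => coX lam k e a (π ω) (W ω)) =
      P'.ex (fun ω => (3 + lam) * Real.log (W ω).u2 + (1 - lam) * Real.log (W ω).u1) +
        k * P'.ex (fun ω => dsh (W ω) (e (π ω))) - 3 * a * Real.log 2 := by
    unfold coX
    rw [P'.ex_sub, P'.ex_add, P'.ex_const_mul, P'.ex_const]
  unfold valX gval val
  rw [h1]
  ring

theorem xSet_eq : xSet c lam k La P l t C e L a = gSet La shp (adX c l t L a) (coX lam k e a) P l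
    (fun ω => (fl1 a (t ω), C ω)) (fun ω => (l ω, fl1 a (t ω), C ω)) := by
  ext v
  constructor
  · rintro ⟨Ω', i, P', π, W, h1, h2, rfl⟩
    exact ⟨Ω', i, P', π, W, h1, h2, valX_eq P' π W⟩
  · rintro ⟨Ω', i, P', π, W, h1, h2, rfl⟩
    exact ⟨Ω', i, P', π, W, h1, h2, (valX_eq P' π W).symm⟩

theorem XX_eq : XX c lam k La P l t C e L a = gsup La shp (adX c l t L a) (coX lam k e a) P l
    (fun ω => (fl1 a (t ω), C ω)) (fun ω => (l ω, fl1 a (t ω), C ω)) := by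
  unfold XX gsup
  rw [xSet_eq]

/-- the shapes of the labels -/
noncomputable def shS (L : ℕ) : Finset (ℝ × ℝ) :=
  (range (L + 1) ×ˢ range (L + 1)).image fun p => ((1 / 2 : ℝ) ^ p.1, (1 / 2 : ℝ) ^ p.2)

theorem shp_mem {B : Cbx} {l : Ry} {t : ℝ} (h : LbOk c L a B l t) : shp B ∈ shS L := by
  obtain ⟨b, R, hb, hR, hbR, haR⟩ := h.sh
  unfold shS shp
  rw [mem_image]
  exact ⟨(R, b), by rw [mem_product, mem_range, mem_range]; constructor <;> simp <;> omega, by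
    rw [hb, hR]⟩

theorem shS_card (L : ℕ) : (shS L).card ≤ (L + 1) ^ 2 := by
  unfold shS
  refine card_image_le.trans (le_of_eq ?_)
  rw [card_product, card_range, pow_two]

theorem log_shS (L : ℕ) : Real.log (shS L).card ≤ 2 * Real.log (L + 1) := by
  have h1 : ((shS L).card : ℝ) ≤ ((L : ℝ) + 1) ^ 2 := by exact_mod_cast shS_card L
  have h2 : 0 < (shS L).card := card_pos.2 ⟨((1 / 2 : ℝ) ^ 0, (1 / 2 : ℝ) ^ 0), by
    unfold shS
    rw [mem_image]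
    exact ⟨(0, 0), by simp, rfl⟩⟩
  refine (Real.log_le_log (by exact_mod_cast h2) h1).trans (le_of_eq ?_)
  rw [Real.log_pow]
  norm_num

theorem coX_ge (h0 : 0 ≤ lam) (h1 : lam ≤ 1) (hk : 0 ≤ k) {ω : Ω} {B : Cbx} (h : adX c l t L a ω B) :
    -(4 * ((L : ℝ) - a) * Real.log 2 + 3 * a * Real.log 2) ≤ coX lam k e a ω B := by
  have h2 := (LbOk.size h h0 h1).2
  have h3 := mul_nonneg hk (dsh_nonneg B (e ω))
  unfold coX
  linarith

theorem GBX (h0 : 0 ≤ lam) (h1 : lam ≤ 1) (hk : 0 ≤ k) (P : Law Ω) :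
    GB shp (adX c l t L a) (coX lam k e a) P :=
  ⟨4 * ((L : ℝ) - a) * Real.log 2 + 3 * a * Real.log 2, shS L, fun _ _ _ h =>
    ⟨coX_ge h0 h1 hk h, shp_mem h⟩⟩

theorem NEX (hc : 0 ≤ c) (ha : a ≤ L) (P : Law Ω) : NE (adX c l t L a) P :=
  fun ω _ => ⟨_, self_LbOk hc ha (l ω) (t ω)⟩

/-! ### bounds -/

theorem xSet_bdd (h0 : 0 ≤ lam) (h1 : lam ≤ 1) (hk : 0 ≤ k) (hLa : 0 ≤ La) :
    BddAbove (xSet c lam k La P l t C e L a) := by
  rw [xSet_eq]
  exact gSet_bdd hLa (GBX h0 h1 hk P)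

theorem xSet_ne (hc : 0 ≤ c) (ha : a ≤ L) : (xSet c lam k La P l t C e L a).Nonempty := by
  rw [xSet_eq]
  exact gSet_nonempty (NEX hc ha P)

/-- every label on an extension gives a lower bound -/
theorem valX_le_XX (h0 : 0 ≤ lam) (h1 : lam ≤ 1) (hk : 0 ≤ k) (hLa : 0 ≤ La) {Ω' : Type} [Fintype Ω']
    {P' : Law Ω'} {π : Ω' → Ω} {W : Ω' → Cbx} (g1 : ∀ ω, P'.pr π ω = P.w ω)
    (g2 : ∀ ω, 0 < P'.w ω → LbOk c L a (W ω) (l (π ω)) (t (π ω))) :
    valX lam k La P' (fun ω => l (π ω)) (fun ω => t (π ω)) (fun ω => C (π ω)) a (fun ω => e (π ω)) W ≤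
      XX c lam k La P l t C e L a :=
  le_csSup (xSet_bdd h0 h1 hk hLa) ⟨Ω', inferInstance, P', π, W, g1, g2, rfl⟩

/-- the same on the system itself -/
theorem valX_le_XX' (h0 : 0 ≤ lam) (h1 : lam ≤ 1) (hk : 0 ≤ k) (hLa : 0 ≤ La) {W : Ω → Cbx}
    (g2 : ∀ ω, 0 < P.w ω → LbOk c L a (W ω) (l ω) (t ω)) :
    valX lam k La P l t C a e W ≤ XX c lam k La P l t C e L a :=
  valX_le_XX (C := C) (e := e) (π := id) h0 h1 hk hLa (Stk.pr_id P) g2

theorem XX_le (hc : 0 ≤ c) (ha : a ≤ L) {b : ℝ}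
    (h : ∀ (Ω' : Type) [Fintype Ω'] (P' : Law Ω') (π : Ω' → Ω) (W : Ω' → Cbx),
      (∀ ω, P'.pr π ω = P.w ω) → (∀ ω, 0 < P'.w ω → LbOk c L a (W ω) (l (π ω)) (t (π ω))) →
      valX lam k La P' (fun ω => l (π ω)) (fun ω => t (π ω)) (fun ω => C (π ω)) a (fun ω => e (π ω)) W ≤ b) :
    XX c lam k La P l t C e L a ≤ b := by
  refine csSup_le (xSet_ne hc ha) ?_
  rintro v ⟨Ω', _, P', π, W, g1, g2, rfl⟩
  exact h Ω' P' π W g1 g2

/-- a nearly optimal label -/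
theorem XX_near (hc : 0 ≤ c) (ha : a ≤ L) {η : ℝ} (hη : 0 < η) :
    ∃ (Ω' : Type) (_ : Fintype Ω') (P' : Law Ω') (π : Ω' → Ω) (W : Ω' → Cbx),
      (∀ ω, P'.pr π ω = P.w ω) ∧ (∀ ω, 0 < P'.w ω → LbOk c L a (W ω) (l (π ω)) (t (π ω))) ∧
      XX c lam k La P l t C e L a - η < valX lam k La P' (fun ω => l (π ω)) (fun ω => t (π ω))
        (fun ω => C (π ω)) a (fun ω => e (π ω)) W := by
  obtain ⟨v, ⟨Ω', i, P', π, W, g1, g2, rfl⟩, h3⟩ := exists_lt_of_lt_csSup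
    (xSet_ne (lam := lam) (k := k) (La := La) (P := P) (l := l) (t := t) (C := C) (e := e) hc ha)
    (sub_lt_self (XX c lam k La P l t C e L a) hη)
  exact ⟨Ω', i, P', π, W, g1, g2, h3⟩

/-- without prices -/
theorem valX_zero (W : Ω → Cbx) : valX lam 0 0 P l t C a e W = val lam P l t C a W := by
  unfold valX
  ring

theorem XX_zero : XX c lam 0 0 P l t C e L a = X c lam P l t C L a := by
  unfold XX X xSet vSet
  simp only [valX_zero]

/-- the prices decrease, the reward increases -/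
theorem valX_mono {k' La' : ℝ} (hk : k' ≤ k) (hLa : La ≤ La') (W : Ω → Cbx) :
    valX lam k La P l t C a e W ≤ valX lam k' La' P l t C a e W := by
  unfold valX
  have h1 : 0 ≤ P.ex (fun ω => dsh (W ω) (e ω)) := P.ex_nonneg fun ω _ => dsh_nonneg _ _
  have h2 := Stk.hc_nonneg P (fun ω => shp (W ω)) (fun ω => (l ω, fl1 a (t ω), C ω))
  have h3 := mul_le_mul_of_nonneg_right hk h1
  have h4 := mul_le_mul_of_nonneg_right hLa h2
  linarith

theorem XX_mono_k {k' La' : ℝ} (hc : 0 ≤ c) (ha : a ≤ L) (h0 : 0 ≤ lam) (h1 : lam ≤ 1) (hk' : 0 ≤ k')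
    (hLa' : 0 ≤ La') (hk : k' ≤ k) (hLa : La ≤ La') :
    XX c lam k La P l t C e L a ≤ XX c lam k' La' P l t C e L a :=
  XX_le hc ha fun Ω' _ P' π W g1 g2 => (valX_mono (P := P') (l := fun ω => l (π ω))
    (t := fun ω => t (π ω)) (C := fun ω => C (π ω)) (e := fun ω => e (π ω)) hk hLa W).trans
      (valX_le_XX h0 h1 hk' hLa' g1 g2)

theorem XX_le_X (hc : 0 ≤ c) (ha : a ≤ L) (h0 : 0 ≤ lam) (h1 : lam ≤ 1) (hk : 0 ≤ k) :
    XX c lam k 0 P l t C e L a ≤ X c lam P l t C L a := by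
  rw [← XX_zero (e := e)]
  exact XX_mono_k hc ha h0 h1 le_rfl le_rfl hk le_rfl

/-- the reward is at most `2 La log (L + 1)` -/
theorem XX_le_reward (hc : 0 ≤ c) (ha : a ≤ L) (h0 : 0 ≤ lam) (h1 : lam ≤ 1) (hk : 0 ≤ k) (hLa : 0 ≤ La) :
    XX c lam k La P l t C e L a ≤ XX c lam k 0 P l t C e L a + La * (2 * Real.log (L + 1)) := by
  refine XX_le hc ha fun Ω' _ P' π W g1 g2 => ?_
  have h2 := valX_le_XX (C := C) (e := e) (La := 0) h0 h1 hk le_rfl g1 g2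
  have h3 : Stk.hc P' (fun ω => shp (W ω)) (fun ω => (l (π ω), fl1 a (t (π ω)), C (π ω))) ≤
      2 * Real.log (L + 1) :=
    (hc_le_card P' _ _ (shS L) fun ω hω => shp_mem (g2 ω hω)).trans (log_shS L)
  have h4 := mul_le_mul_of_nonneg_left h3 hLa
  unfold valX at h2 ⊢
  linarith

theorem XX_ge_zero (hc : 0 ≤ c) (ha : a ≤ L) (h0 : 0 ≤ lam) (h1 : lam ≤ 1) (hk : 0 ≤ k) (hLa : 0 ≤ La) :
    3 * a * Real.log 2 - k * P.ex (fun ω => ((e ω).1 + (e ω).2) * Real.log 2) ≤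
      XX c lam k La P l t C e L a := by
  have h2 := valX_le_XX' (c := c) (C := C) (P := P) (l := l) (t := t) (L := L) (a := a) (e := e)
    h0 h1 hk hLa (fun ω _ => self_LbOk hc ha (l ω) (t ω))
  refine le_trans ?_ h2
  have h3 := val_ge_zero (c := c) (C := C) (P := P) (l := l) (t := t) (L := L) (a := a) h0 h1
    (fun ω _ => self_LbOk hc ha (l ω) (t ω))
  have h4 := Stk.hc_nonneg P l (fun ω => ((⟨0, 1, 1, 0, 0, (bl a (l ω) (t ω)).y,
    (bl a (l ω) (t ω)).s, (bl a (l ω) (t ω)).z⟩ : Cbx), fl1 a (t ω), C ω))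
  have h5 := Stk.hc_nonneg P (fun ω => shp (⟨0, 1, 1, 0, 0, (bl a (l ω) (t ω)).y,
    (bl a (l ω) (t ω)).s, (bl a (l ω) (t ω)).z⟩ : Cbx)) (fun ω => (l ω, fl1 a (t ω), C ω))
  have h6 := mul_nonneg hLa h5
  have h7 : ∀ ω, dsh (⟨0, 1, 1, 0, 0, (bl a (l ω) (t ω)).y,
    (bl a (l ω) (t ω)).s, (bl a (l ω) (t ω)).z⟩ : Cbx) (e ω) = ((e ω).1 + (e ω).2) * Real.log 2 := by
    intro ω
    unfold dsh
    have hl2 : 0 ≤ Real.log 2 := Real.log_nonneg (by norm_num)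
    simp only [Real.log_one, zero_add]
    rw [abs_of_nonneg (by positivity), abs_of_nonneg (by positivity)]
    ring
  unfold valX
  simp only [h7]
  linarith

/-! ### extensions -/

theorem valX_law {Ω' : Type} [Fintype Ω'] {P' : Law Ω'} {π : Ω' → Ω} (h : ∀ ω, P'.pr π ω = P.w ω)
    (W : Ω → Cbx) :
    valX lam k La P' (fun ω => l (π ω)) (fun ω => t (π ω)) (fun ω => C (π ω)) a (fun ω => e (π ω))
      (fun ω => W (π ω)) = valX lam k La P l t C a e W := by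
  unfold valX
  rw [val_law h W]
  have e1 := Stk.hc_of_law P' P π h (fun ω => shp (W ω)) (fun ω => (l ω, fl1 a (t ω), C ω))
  have e2 := Stk.ex_law_aux P' P π h (fun ω => dsh (W ω) (e ω))
  rw [← e1, ← e2]
  rfl

theorem XX_ext {Ω' : Type} [Fintype Ω'] {P' : Law Ω'} {π : Ω' → Ω} (h : ∀ ω, P'.pr π ω = P.w ω) :
    XX c lam k La P' (fun ω => l (π ω)) (fun ω => t (π ω)) (fun ω => C (π ω)) (fun ω => e (π ω)) L a =
      XX c lam k La P l t C e L a := by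
  rw [XX_eq, XX_eq]
  exact gsup_ext (Ad := adX c l t L a) (g := coX lam k e a) (X := l)
    (Y := fun ω => (fl1 a (t ω), C ω)) (Z := fun ω => (l ω, fl1 a (t ω), C ω)) h

/-- the target shape matters on the support only -/
theorem XX_congr_e {e' : Ω → ℕ × ℕ} (h : ∀ ω, 0 < P.w ω → e ω = e' ω) :
    XX c lam k La P l t C e L a = XX c lam k La P l t C e' L a := by
  rw [XX_eq, XX_eq]
  refine gsup_congr (fun _ _ _ => Iff.rfl) fun ω hω B _ => ?_
  unfold coX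
  rw [h ω hω]

/-- change of the target -/
theorem XX_le_target {e' : Ω → ℕ × ℕ} (hc : 0 ≤ c) (ha : a ≤ L) (h0 : 0 ≤ lam) (h1 : lam ≤ 1)
    (hk : 0 ≤ k) (hLa : 0 ≤ La) :
    XX c lam k La P l t C e L a ≤ XX c lam k La P l t C e' L a +
      k * P.ex (fun ω => (|((e ω).1 : ℝ) - (e' ω).1| + |((e ω).2 : ℝ) - (e' ω).2|) * Real.log 2) := by
  refine XX_le hc ha fun Ω' _ P' π W g1 g2 => ?_
  have h2 := valX_le_XX (C := C) (e := e') h0 h1 hk hLa g1 g2
  have h3 : P'.ex (fun ω => dsh (W ω) (e' (π ω))) ≤ P'.ex (fun ω => dsh (W ω) (e (π ω))) +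
      P'.ex (fun ω => (|((e (π ω)).1 : ℝ) - (e' (π ω)).1| + |((e (π ω)).2 : ℝ) - (e' (π ω)).2|) *
        Real.log 2) := by
    rw [← P'.ex_add]
    refine P'.ex_mono fun ω _ => ?_
    have hl2 : 0 ≤ Real.log 2 := Real.log_nonneg (by norm_num)
    have key : ∀ (x : ℝ) (p q : ℕ), |x + q * Real.log 2| ≤ |x + p * Real.log 2| +
        |(p : ℝ) - q| * Real.log 2 := by
      intro x p q
      have e1 : x + q * Real.log 2 = (x + p * Real.log 2) - ((p : ℝ) - q) * Real.log 2 := by ring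
      rw [e1]
      refine (abs_sub _ _).trans ?_
      rw [abs_mul ((p : ℝ) - q), abs_of_nonneg hl2]
    unfold dsh
    have k1 := key (Real.log (W ω).u2) (e (π ω)).1 (e' (π ω)).1
    have k2 := key (Real.log (W ω).u1) (e (π ω)).2 (e' (π ω)).2
    linarith
  have h4 : P'.ex (fun ω => (|((e (π ω)).1 : ℝ) - (e' (π ω)).1| + |((e (π ω)).2 : ℝ) - (e' (π ω)).2|) *
        Real.log 2) = P.ex (fun ω => (|((e ω).1 : ℝ) - (e' ω).1| + |((e ω).2 : ℝ) - (e' ω).2|) *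
        Real.log 2) :=
    Stk.ex_law_aux P' P π g1
      (fun ω => (|((e ω).1 : ℝ) - (e' ω).1| + |((e ω).2 : ℝ) - (e' ω).2|) * Real.log 2)
  rw [h4] at h3
  have h5 := mul_le_mul_of_nonneg_left h3 hk
  unfold valX at h2 ⊢
  linarith

/-! ### letters -/

theorem valX_mono_C (hLa : 0 ≤ La) {C' : Ω → δ} (h : Fn P C C') (W : Ω → Cbx) :
    valX lam k La P l t C' a e W ≤ valX lam k La P l t C a e W := by
  unfold valX
  have h1 := val_mono_C (lam := lam) (l := l) (t := t) (a := a) h W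
  have h2 := Stk.hc_mono_right P (fun ω => shp (W ω)) (Y := fun ω => (l ω, fl1 a (t ω), C ω))
    (Y' := fun ω => (l ω, fl1 a (t ω), C' ω)) (fun ω ω' hω hω' e => by
      simp only [Prod.mk.injEq] at e ⊢
      exact ⟨e.1, e.2.1, h ω ω' hω hω' e.2.2⟩)
  have h3 := mul_le_mul_of_nonneg_left h2 hLa
  linarith

/-- a finer letter decreases `XX` -/
theorem XX_mono_C (hc : 0 ≤ c) (ha : a ≤ L) (h0 : 0 ≤ lam) (h1 : lam ≤ 1) (hk : 0 ≤ k) (hLa : 0 ≤ La)
    {C' : Ω → δ} (h : Fn P C C') : XX c lam k La P l t C' e L a ≤ XX c lam k La P l t C e L a :=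
  XX_le hc ha fun Ω' _ P' π W g1 g2 =>
    (valX_mono_C (l := fun ω => l (π ω)) (t := fun ω => t (π ω)) (e := fun ω => e (π ω)) hLa
      (Fn_ext g1 h) W).trans (valX_le_XX (C := C) h0 h1 hk hLa g1 g2)

/-- equivalent letters -/
theorem XX_congr_C (hc : 0 ≤ c) (ha : a ≤ L) (h0 : 0 ≤ lam) (h1 : lam ≤ 1) (hk : 0 ≤ k) (hLa : 0 ≤ La)
    {C' : Ω → δ} (h : Fn P C C') (h' : Fn P C' C) :
    XX c lam k La P l t C' e L a = XX c lam k La P l t C e L a :=
  le_antisymm (XX_mono_C hc ha h0 h1 hk hLa h) (XX_mono_C hc ha h0 h1 hk hLa h')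

theorem XX_pair_le (hc : 0 ≤ c) (ha : a ≤ L) (h0 : 0 ≤ lam) (h1 : lam ≤ 1) (hk : 0 ≤ k) (hLa : 0 ≤ La)
    (G : Ω → δ) : XX c lam k La P l t (fun ω => (C ω, G ω)) e L a ≤ XX c lam k La P l t C e L a :=
  XX_mono_C hc ha h0 h1 hk hLa fun _ _ _ _ e => (Prod.mk.inj e).1

/-- a letter `G` costs its entropy given the label, and `La` times its entropy given the ray -/
theorem valX_pair (hLa : 0 ≤ La) (G : Ω → δ) (W : Ω → Cbx) :
    valX lam k La P l t C a e W - Stk.hc P G (fun ω => (W ω, fl1 a (t ω), C ω)) -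
        La * Stk.hc P G (fun ω => (l ω, fl1 a (t ω), C ω)) ≤
      valX lam k La P l t (fun ω => (C ω, G ω)) a e W := by
  unfold valX
  have h1 := val_pair (lam := lam) (P := P) (l := l) (t := t) (C := C) (a := a) G W
  have h2 := Stk.hc_le_add' P (fun ω => shp (W ω)) G (fun ω => (l ω, fl1 a (t ω), C ω))
  have h3 : Stk.hc P (fun ω => shp (W ω)) (fun ω => (G ω, l ω, fl1 a (t ω), C ω)) ≤
      Stk.hc P (fun ω => shp (W ω)) (fun ω => (l ω, fl1 a (t ω), C ω, G ω)) :=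
    Stk.hc_mono_right P _ (fun ω ω' _ _ e => by
      simp only [Prod.mk.injEq] at e ⊢
      exact ⟨e.2.1, e.2.2.1, e.2.2.2, e.1⟩)
  have h4 := mul_le_mul_of_nonneg_left (h2.trans (add_le_add h3 le_rfl)) hLa
  linarith

/-- if `G` is nearly a function of the label `W` -/
theorem XX_pair_ge_W (h0 : 0 ≤ lam) (h1 : lam ≤ 1) (hk : 0 ≤ k) (hLa : 0 ≤ La) {Ω' : Type} [Fintype Ω']
    {P' : Law Ω'} {π : Ω' → Ω} {W : Ω' → Cbx} (g1 : ∀ ω, P'.pr π ω = P.w ω)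
    (g2 : ∀ ω, 0 < P'.w ω → LbOk c L a (W ω) (l (π ω)) (t (π ω))) (G : Ω → δ) :
    valX lam k La P' (fun ω => l (π ω)) (fun ω => t (π ω)) (fun ω => C (π ω)) a (fun ω => e (π ω)) W -
      Stk.hc P' (fun ω => G (π ω)) (fun ω => (W ω, fl1 a (t (π ω)), C (π ω))) -
      La * Stk.hc P G (fun ω => (l ω, fl1 a (t ω), C ω)) ≤
      XX c lam k La P l t (fun ω => (C ω, G ω)) e L a := by
  have e1 : Stk.hc P' (fun ω => G (π ω)) (fun ω => (l (π ω), fl1 a (t (π ω)), C (π ω))) =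
      Stk.hc P G (fun ω => (l ω, fl1 a (t ω), C ω)) :=
    Stk.hc_of_law P' P π g1 G (fun ω => (l ω, fl1 a (t ω), C ω))
  rw [← e1]
  exact (valX_pair (l := fun ω => l (π ω)) (t := fun ω => t (π ω)) (C := fun ω => C (π ω))
    (e := fun ω => e (π ω)) hLa (fun ω => G (π ω)) W).trans
    (valX_le_XX (C := fun ω => (C ω, G ω)) h0 h1 hk hLa g1 g2)

/-- comparison of `XX` for two letters -/
theorem XX_le_add (hc : 0 ≤ c) (ha : a ≤ L) (h0 : 0 ≤ lam) (h1 : lam ≤ 1) (hk : 0 ≤ k) (hLa : 0 ≤ La)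
    (G : Ω → δ) :
    XX c lam k La P l t C e L a ≤ XX c lam k La P l t (fun ω => (C ω, G ω)) e L a +
      Stk.hc P G (fun ω => (fl1 a (t ω), C ω)) + La * Stk.hc P G (fun ω => (l ω, fl1 a (t ω), C ω)) := by
  refine XX_le hc ha fun Ω' _ P' π W g1 g2 => ?_
  have h2 := XX_pair_ge_W (c := c) (lam := lam) (k := k) (La := La) (P := P) (l := l) (t := t)
    (C := C) (e := e) h0 h1 hk hLa g1 g2 G
  have h4 : Stk.hc P' (fun ω => G (π ω)) (fun ω => (W ω, fl1 a (t (π ω)), C (π ω))) ≤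
      Stk.hc P' (fun ω => G (π ω)) (fun ω => (fl1 a (t (π ω)), C (π ω))) :=
    Stk.hc_mono_right P' _ (fun ω ω' _ _ e => (Prod.mk.inj e).2)
  have h5 : Stk.hc P' (fun ω => G (π ω)) (fun ω => (fl1 a (t (π ω)), C (π ω))) =
      Stk.hc P G (fun ω => (fl1 a (t ω), C ω)) :=
    Stk.hc_of_law P' P π g1 G (fun ω => (fl1 a (t ω), C ω))
  linarith

/-! ### mixtures -/

/-- **MIXTURE** for `XX` (equality) -/
theorem XX_mix (hc : 0 ≤ c) (ha : a ≤ L) (h0 : 0 ≤ lam) (h1 : lam ≤ 1) (hk : 0 ≤ k) (hLa : 0 ≤ La)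
    (E : Ω → δ) :
    XX c lam k La P l t (fun ω => (C ω, E ω)) e L a =
      ∑ z ∈ img E, P.pr E z * XX c lam k La (P.cond E z) l t C e L a := by
  have h2 : ∀ z, XX c lam k La (P.cond E z) l t C e L a =
      gsup La shp (adX c l t L a) (coX lam k e a) (P.cond E z) l
        (fun ω => (fl1 a (t ω), C ω)) (fun ω => (l ω, fl1 a (t ω), C ω)) := fun z => XX_eq
  simp only [h2]
  rw [← gsup_cond_sum (X := l) (Y := fun ω => (fl1 a (t ω), C ω))
    (Z := fun ω => (l ω, fl1 a (t ω), C ω)) E hLa (GBX h0 h1 hk P) (NEX hc ha P), XX_eq]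
  refine gsup_congr_var hLa (GBX h0 h1 hk P) (NEX hc ha P) ?_ ?_ ?_ ?_ ?_ ?_
  · exact fun _ _ _ _ e => (Prod.mk.inj e).1
  · exact fun _ _ _ _ e => (Prod.mk.inj e).1
  · intro _ _ _ _ e
    simp only [Prod.mk.injEq] at e ⊢
    tauto
  · intro _ _ _ _ e
    simp only [Prod.mk.injEq] at e ⊢
    tauto
  · intro _ _ _ _ e
    simp only [Prod.mk.injEq] at e ⊢
    tauto
  · intro _ _ _ _ e
    simp only [Prod.mk.injEq] at e ⊢
    tauto

theorem XX_mix_le (hc : 0 ≤ c) (ha : a ≤ L) (h0 : 0 ≤ lam) (h1 : lam ≤ 1) (hk : 0 ≤ k) (hLa : 0 ≤ La)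
    (E : Ω → δ) :
    ∑ z ∈ img E, P.pr E z * XX c lam k La (P.cond E z) l t C e L a ≤ XX c lam k La P l t C e L a := by
  rw [← XX_mix hc ha h0 h1 hk hLa E]
  exact XX_pair_le hc ha h0 h1 hk hLa E

theorem XX_le_mix (hc : 0 ≤ c) (ha : a ≤ L) (h0 : 0 ≤ lam) (h1 : lam ≤ 1) (hk : 0 ≤ k) (hLa : 0 ≤ La)
    (E : Ω → δ) :
    XX c lam k La P l t C e L a ≤ ∑ z ∈ img E, P.pr E z * XX c lam k La (P.cond E z) l t C e L a +
      Stk.hc P E (fun ω => (fl1 a (t ω), C ω)) + La * Stk.hc P E (fun ω => (l ω, fl1 a (t ω), C ω)) := by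
  rw [← XX_mix hc ha h0 h1 hk hLa E]
  exact XX_le_add hc ha h0 h1 hk hLa E

theorem XX_le_mix_H (hc : 0 ≤ c) (ha : a ≤ L) (h0 : 0 ≤ lam) (h1 : lam ≤ 1) (hk : 0 ≤ k) (hLa : 0 ≤ La)
    (E : Ω → δ) :
    XX c lam k La P l t C e L a ≤ ∑ z ∈ img E, P.pr E z * XX c lam k La (P.cond E z) l t C e L a +
      (1 + La) * P.H E := by
  have h2 := XX_le_mix (c := c) (lam := lam) (k := k) (La := La) (P := P) (l := l) (t := t) (C := C)
    (e := e) hc ha h0 h1 hk hLa E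
  have h3 := Stk.hc_le_H P E (fun ω => (fl1 a (t ω), C ω))
  have h4 := mul_le_mul_of_nonneg_left (Stk.hc_le_H P E (fun ω => (l ω, fl1 a (t ω), C ω))) hLa
  linarith

end Vale.Agent.P106.U.H875
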