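import Vale.Agent.P127.TV.Shift

/-!
# P106 / U / H875 : motions of the state, as relations; commutators; digits of a pure shift (helper875)

State : position `x`, `z`, `n`, frame `p` (slope), `k` (kappa).  Motion `g(X, Z; al)` :
`x += X`, `z += Z`, `n += p X + k Z + al X² / 2`, `p += al X`, `k` fixed.

* `Mo X Z al r a b` : `b = g(X, Z; al) a` up to `r`.
* `Mo.comp2`, `Mo.inv` : the group law; `comm` : the commutator of two motions is the shift of `n` by `(α₁ - α₂) X X'`.
* `Sh u v r a b` : shear `n += u`, `p += v`; `shear` : `g(X, Z; β) g(X, Z; α)⁻¹`; `shear3` : three shears close.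
* `digits_c` : a pure shift of `n` (the other coordinates fixed up to `c`) gives the digits of `n` given the cells of the
  other coordinates.
-/

set_option autoImplicit false

namespace Vale.Agent.P106.U.H875

open Finset Vale.Agent.P127 Vale.Agent.P127.Stk Vale.Agent.P127.U.Pin Vale.Agent.P127.TV

/-- the state -/
structure Sta where
  x : ℝ
  z : ℝ
  n : ℝ
  p : ℝ
  k : ℝ

section motions

/-- `b = g(X, Z; al) a` up to `r` -/
structure Mo (X Z al r : ℝ) (a b : Sta) : Prop where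
  x : |b.x - a.x - X| ≤ r
  z : |b.z - a.z - Z| ≤ r
  p : |b.p - a.p - al * X| ≤ r
  k : |b.k - a.k| ≤ r
  n : |b.n - a.n - (a.p * X + a.k * Z + al * X ^ 2 / 2)| ≤ r

/-- a pure shift of `n` (and of `p`), up to `r` -/
structure Sh (u v r : ℝ) (a b : Sta) : Prop where
  x : |b.x - a.x| ≤ r
  z : |b.z - a.z| ≤ r
  p : |b.p - a.p - v| ≤ r
  k : |b.k - a.k| ≤ r
  n : |b.n - a.n - u| ≤ r

theorem abs3 {a b c u v w : ℝ} (ha : |a| ≤ u) (hb : |b| ≤ v) (hc : |c| ≤ w) : |a + b + c| ≤ u + v + w :=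
  (abs_add_le _ _).trans (add_le_add ((abs_add_le _ _).trans (add_le_add ha hb)) hc)

theorem mul_err {d X r : ℝ} (hd : |d| ≤ r) (hX : |X| ≤ 1) : |d * X| ≤ r := by
  rw [abs_mul]
  calc |d| * |X| ≤ r * 1 := mul_le_mul hd hX (abs_nonneg _) ((abs_nonneg _).trans hd)
    _ = r := mul_one r

theorem Mo.mono {X Z al r r' : ℝ} {a b : Sta} (h : Mo X Z al r a b) (hr : r ≤ r') : Mo X Z al r' a b :=
  ⟨h.x.trans hr, h.z.trans hr, h.p.trans hr, h.k.trans hr, h.n.trans hr⟩

theorem Sh.mono {u v r r' : ℝ} {a b : Sta} (h : Sh u v r a b) (hr : r ≤ r') : Sh u v r' a b :=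
  ⟨h.x.trans hr, h.z.trans hr, h.p.trans hr, h.k.trans hr, h.n.trans hr⟩

/-- the inverse motion -/
theorem Mo.inv {X Z al r : ℝ} {a b : Sta} (hX : |X| ≤ 1) (hZ : |Z| ≤ 1) (h : Mo X Z al r a b) :
    Mo (-X) (-Z) al (3 * r) b a := by
  have hr : 0 ≤ r := (abs_nonneg _).trans h.x
  refine ⟨?_, ?_, ?_, ?_, ?_⟩
  · rw [show a.x - b.x - -X = -(b.x - a.x - X) by ring, abs_neg]
    exact h.x.trans (by linarith)
  · rw [show a.z - b.z - -Z = -(b.z - a.z - Z) by ring, abs_neg]
    exact h.z.trans (by linarith)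
  · rw [show a.p - b.p - al * -X = -(b.p - a.p - al * X) by ring, abs_neg]
    exact h.p.trans (by linarith)
  · rw [abs_sub_comm]
    exact h.k.trans (by linarith)
  · have e : a.n - b.n - (b.p * -X + b.k * -Z + al * (-X) ^ 2 / 2) =
        -(b.n - a.n - (a.p * X + a.k * Z + al * X ^ 2 / 2)) + (b.p - a.p - al * X) * X +
          (b.k - a.k) * Z := by ring
    rw [e]
    refine (abs3 (u := r) (v := r) (w := r) ?_ (mul_err h.p hX) (mul_err h.k hZ)).trans (by linarith)
    rw [abs_neg]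
    exact h.n

/-- one more motion, in a general position -/
theorem Mo.step {X Z al r : ℝ} {a b : Sta} (h : Mo X Z al r a b) (hX : |X| ≤ 1) (hZ : |Z| ≤ 1)
    {o : Sta} {dx dz dp dn s : ℝ} (h1 : |a.x - o.x - dx| ≤ s) (h2 : |a.z - o.z - dz| ≤ s)
    (h3 : |a.p - o.p - dp| ≤ s) (h4 : |a.k - o.k| ≤ s) (h5 : |a.n - o.n - dn| ≤ s) :
    |b.x - o.x - (dx + X)| ≤ s + r ∧ |b.z - o.z - (dz + Z)| ≤ s + r ∧
      |b.p - o.p - (dp + al * X)| ≤ s + r ∧ |b.k - o.k| ≤ s + r ∧
      |b.n - o.n - (dn + (o.p + dp) * X + o.k * Z + al * X ^ 2 / 2)| ≤ 3 * s + r := by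
  have key : ∀ {u v : ℝ}, |u| ≤ s → |v| ≤ r → |u + v| ≤ s + r := fun hu hv =>
    (abs_add_le _ _).trans (add_le_add hu hv)
  refine ⟨?_, ?_, ?_, ?_, ?_⟩
  · rw [show b.x - o.x - (dx + X) = (a.x - o.x - dx) + (b.x - a.x - X) by ring]
    exact key h1 h.x
  · rw [show b.z - o.z - (dz + Z) = (a.z - o.z - dz) + (b.z - a.z - Z) by ring]
    exact key h2 h.z
  · rw [show b.p - o.p - (dp + al * X) = (a.p - o.p - dp) + (b.p - a.p - al * X) by ring]
    exact key h3 h.p
  · rw [show b.k - o.k = (a.k - o.k) + (b.k - a.k) by ring]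
    exact key h4 h.k
  · have e : b.n - o.n - (dn + (o.p + dp) * X + o.k * Z + al * X ^ 2 / 2) =
        ((a.n - o.n - dn) + (a.p - o.p - dp) * X + (a.k - o.k) * Z) +
          (b.n - a.n - (a.p * X + a.k * Z + al * X ^ 2 / 2)) := by ring
    rw [e]
    refine (abs_add_le _ _).trans (add_le_add ?_ h.n)
    exact (abs3 h5 (mul_err h3 hX) (mul_err h4 hZ)).trans (by linarith)

/-- **the commutator** of two motions -/
theorem Mo.comm {X Z al X' Z' al' r : ℝ} {a b c d e : Sta} (hX : |X| ≤ 1) (hZ : |Z| ≤ 1)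
    (hX' : |X'| ≤ 1) (hZ' : |Z'| ≤ 1) (h1 : Mo X Z al r a b) (h2 : Mo X' Z' al' r b c)
    (h3 : Mo X Z al r d c) (h4 : Mo X' Z' al' r e d) :
    Sh ((al - al') * (X * X')) 0 (48 * r) a e := by
  have hr : 0 ≤ r := (abs_nonneg _).trans h1.x
  have h3' := h3.inv hX hZ
  have h4' := h4.inv hX' hZ'
  have nX : |(-X)| ≤ 1 := by rwa [abs_neg]
  have nZ : |(-Z)| ≤ 1 := by rwa [abs_neg]
  have nX' : |(-X')| ≤ 1 := by rwa [abs_neg]
  have nZ' : |(-Z')| ≤ 1 := by rwa [abs_neg]
  obtain ⟨q1, q2, q3, q4, q5⟩ := h2.step hX' hZ' h1.x h1.z h1.p h1.k h1.n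
  obtain ⟨s1, s2, s3, s4, s5⟩ := h3'.step nX nZ (q1.trans (by linarith : r + r ≤ 4 * r))
    (q2.trans (by linarith)) (q3.trans (by linarith)) (q4.trans (by linarith))
    (q5.trans (by linarith))
  obtain ⟨t1, t2, t3, t4, t5⟩ := h4'.step nX' nZ' (s1.trans (by linarith : 4 * r + 3 * r ≤ 15 * r))
    (s2.trans (by linarith)) (s3.trans (by linarith)) (s4.trans (by linarith))
    (s5.trans (by linarith))
  refine ⟨?_, ?_, ?_, t4.trans (by linarith), ?_⟩
  · rw [show e.x - a.x = e.x - a.x - (X + X' + -X + -X') by ring]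
    exact t1.trans (by linarith)
  · rw [show e.z - a.z = e.z - a.z - (Z + Z' + -Z + -Z') by ring]
    exact t2.trans (by linarith)
  · rw [show e.p - a.p - 0 = e.p - a.p - (al * X + al' * X' + al * -X + al' * -X') by ring]
    exact t3.trans (by linarith)
  · refine le_trans (le_of_eq (congrArg _ ?_)) (t5.trans (by linarith))
    ring

/-- the shear `g(X, Z; be) g(X, Z; al)⁻¹` -/
theorem Mo.shear {X Z al be r : ℝ} {a b c : Sta} (hX : |X| ≤ 1) (hZ : |Z| ≤ 1)
    (h1 : Mo X Z al r b a) (h2 : Mo X Z be r b c) :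
    Sh ((be - al) * X ^ 2 / 2) ((be - al) * X) (12 * r) a c := by
  have hr : 0 ≤ r := (abs_nonneg _).trans h1.x
  have h1' := h1.inv hX hZ
  obtain ⟨q1, q2, q3, q4, q5⟩ := h2.step hX hZ h1'.x h1'.z h1'.p h1'.k h1'.n
  refine ⟨?_, ?_, ?_, q4.trans (by linarith), ?_⟩
  · rw [show c.x - a.x = c.x - a.x - (-X + X) by ring]
    exact q1.trans (by linarith)
  · rw [show c.z - a.z = c.z - a.z - (-Z + Z) by ring]
    exact q2.trans (by linarith)
  · rw [show c.p - a.p - (be - al) * X = c.p - a.p - (al * -X + be * X) by ring]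
    exact q3.trans (by linarith)
  · refine le_trans (le_of_eq (congrArg _ ?_)) (q5.trans (by linarith))
    ring

theorem Sh.comp {u v u' v' r r' : ℝ} {a b c : Sta} (h : Sh u v r a b) (h' : Sh u' v' r' b c) :
    Sh (u + u') (v + v') (r + r') a c := by
  have key : ∀ {u v : ℝ}, |u| ≤ r → |v| ≤ r' → |u + v| ≤ r + r' := fun hu hv =>
    (abs_add_le _ _).trans (add_le_add hu hv)
  refine ⟨?_, ?_, ?_, ?_, ?_⟩
  · rw [show c.x - a.x = (b.x - a.x) + (c.x - b.x) by ring]; exact key h.x h'.x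
  · rw [show c.z - a.z = (b.z - a.z) + (c.z - b.z) by ring]; exact key h.z h'.z
  · rw [show c.p - a.p - (v + v') = (b.p - a.p - v) + (c.p - b.p - v') by ring]; exact key h.p h'.p
  · rw [show c.k - a.k = (b.k - a.k) + (c.k - b.k) by ring]; exact key h.k h'.k
  · rw [show c.n - a.n - (u + u') = (b.n - a.n - u) + (c.n - b.n - u') by ring]; exact key h.n h'.n

theorem Sh.inv {u v r : ℝ} {a b : Sta} (h : Sh u v r a b) : Sh (-u) (-v) r b a := by
  refine ⟨?_, ?_, ?_, ?_, ?_⟩
  · rw [abs_sub_comm]; exact h.x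
  · rw [abs_sub_comm]; exact h.z
  · rw [show a.p - b.p - -v = -(b.p - a.p - v) by ring, abs_neg]; exact h.p
  · rw [abs_sub_comm]; exact h.k
  · rw [show a.n - b.n - -u = -(b.n - a.n - u) by ring, abs_neg]; exact h.n

/-- three shears close -/
theorem Sh.three {X X' D r : ℝ} {a b c d : Sta} (h1 : Sh (D * X ^ 2 / 2) (D * X) r a b)
    (h2 : Sh (D * X' ^ 2 / 2) (D * X') r b c) (h3 : Sh (D * (X + X') ^ 2 / 2) (D * (X + X')) r d c) :
    Sh (-(D * (X * X'))) 0 (3 * r) a d := by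
  have h := (h1.comp h2).comp h3.inv
  have e1 : D * X ^ 2 / 2 + D * X' ^ 2 / 2 + -(D * (X + X') ^ 2 / 2) = -(D * (X * X')) := by ring
  have e2 : D * X + D * X' + -(D * (X + X')) = 0 := by ring
  rw [e1, e2] at h
  exact h.mono (by linarith)

end motions

section laws

variable {Ω : Type} [Fintype Ω]

/-- **commutator**, for laws -/
theorem sub_comm {Q : Law Ω} (st : Ω → Sta) {X Z al X' Z' al' r ε ε' : ℝ} (hX : |X| ≤ 1) (hZ : |Z| ≤ 1)
    (hX' : |X'| ≤ 1) (hZ' : |Z'| ≤ 1) (h : SubC Q Q (fun a b => Mo X Z al r (st a) (st b)) ε)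
    (h' : SubC Q Q (fun a b => Mo X' Z' al' r (st a) (st b)) ε') :
    SubC Q Q (fun a b => Sh ((al - al') * (X * X')) 0 (48 * r) (st a) (st b)) (2 * (ε + ε')) := by
  refine (((h.comp h').comp h.symm).comp h'.symm).mono ?_ (by linarith)
  rintro a e ⟨d, ⟨c, ⟨b, h1, h2⟩, h3⟩, h4⟩
  exact Mo.comm hX hZ hX' hZ' h1 h2 h3 h4

/-- the shear, for laws -/
theorem sub_shear {Q : Law Ω} (st : Ω → Sta) {X Z al be r ε ε' : ℝ} (hX : |X| ≤ 1) (hZ : |Z| ≤ 1)
    (h : SubC Q Q (fun a b => Mo X Z al r (st a) (st b)) ε)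
    (h' : SubC Q Q (fun a b => Mo X Z be r (st a) (st b)) ε') :
    SubC Q Q (fun a b => Sh ((be - al) * X ^ 2 / 2) ((be - al) * X) (12 * r) (st a) (st b))
      (ε + ε') := by
  refine (h.symm.comp h').mono ?_ (by linarith)
  rintro a c ⟨b, h1, h2⟩
  exact Mo.shear hX hZ h1 h2

/-- three shears, for laws -/
theorem sub_three {Q : Law Ω} (st : Ω → Sta) {X X' D r ε₁ ε₂ ε₃ : ℝ}
    (h1 : SubC Q Q (fun a b => Sh (D * X ^ 2 / 2) (D * X) r (st a) (st b)) ε₁)
    (h2 : SubC Q Q (fun a b => Sh (D * X' ^ 2 / 2) (D * X') r (st a) (st b)) ε₂)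
    (h3 : SubC Q Q (fun a b => Sh (D * (X + X') ^ 2 / 2) (D * (X + X')) r (st a) (st b)) ε₃) :
    SubC Q Q (fun a b => Sh (-(D * (X * X'))) 0 (3 * r) (st a) (st b)) (ε₁ + ε₂ + ε₃) := by
  refine ((h1.comp h2).comp h3.symm).mono ?_ (by linarith)
  rintro a d ⟨c, ⟨b, g1, g2⟩, g3⟩
  exact g1.three g2 g3

/-- number of integers in an interval of length `< 1` -/
theorem floor_near {x y l : ℝ} (hl : 0 < l) (h : |y - x| ≤ l) :
    ⌊y / l⌋ ∈ Finset.Icc (⌊x / l⌋ - 1) (⌊x / l⌋ + 1) := by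
  have h1 := (abs_le.1 h).1
  have h2 := (abs_le.1 h).2
  have h3 : y / l ≤ x / l + 1 := by
    rw [div_add_one hl.ne']
    exact (div_le_div_iff_of_pos_right hl).2 (by linarith)
  have h4 : x / l - 1 ≤ y / l := by
    rw [div_sub_one hl.ne']
    exact (div_le_div_iff_of_pos_right hl).2 (by linarith)
  rw [Finset.mem_Icc]
  constructor
  · rw [Int.le_floor]
    push_cast
    have := Int.floor_le (x / l)
    linarith
  · have h5 : ⌊y / l⌋ ≤ ⌊x / l + 1⌋ := Int.floor_le_floor h3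
    rwa [Int.floor_add_one] at h5

/-- **digits of a pure shift** : the law is nearly invariant under `N += τ` (`|τ| ≥ l`), the other coordinates `A i` and the
letter fixed up to `c`; then `N` has its digits between `l` and `L` given the cells of the `A i` -/
theorem digits_c {ι : Type} [Fintype ι] {U : Type*} (P : Law Ω) (D : Ω → U) (N : Ω → ℝ) (A : Ω → ι → ℝ)
    (u c : U → ℝ) {ε : ℝ} {l L : ℝ} (s : ι → ℝ) (hl : 0 < l) (hs : ∀ i, 0 < s i) (n : ℕ) (hn : 0 < n)
    (h : SubC P P (fun x y => D x = D y ∧ |N y - N x - u (D x)| ≤ c (D x) ∧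
      ∀ i, |A y i - A x i| ≤ c (D x)) ε)
    (hu : ∀ ω, 0 < P.w ω → l ≤ |u (D ω)|) (hc0 : ∀ ω, 0 < P.w ω → n * c (D ω) ≤ l)
    (hcs : ∀ ω, 0 < P.w ω → ∀ i, n * c (D ω) ≤ s i)
    (hL : ∀ ω, 0 < P.w ω → n * |u (D ω)| ≤ L) :
    (1 - n * ε) * Real.log n - n * ε - Real.log 4 - Real.log (5 * 3 ^ Fintype.card ι : ℕ) ≤
      hc P (fun ω => ⌊N ω / l⌋) (fun ω => (⌊N ω / L⌋, (fun i => ⌊A ω i / s i⌋), D ω)) := by
  classical
  have hε := SubC.eps_nonneg h
  have : Nonempty (Fin n) := ⟨⟨0, hn⟩⟩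
  -- iteration
  have hit : ∀ k : Fin n, SubC P P (fun x y => D x = D y ∧
      |N y - N x - (k : ℕ) * u (D x)| ≤ (k : ℕ) * c (D x) ∧
        ∀ i, |A y i - A x i| ≤ (k : ℕ) * c (D x)) (n * ε) := by
    intro k
    refine (SubC.iter h (fun k x y => D x = D y ∧ |N y - N x - (k : ℕ) * u (D x)| ≤ (k : ℕ) * c (D x) ∧
      ∀ i, |A y i - A x i| ≤ (k : ℕ) * c (D x)) (fun a => ⟨rfl, by simp, fun i => by simp⟩)
      ?_ (k : ℕ)).mono (fun _ _ h => h) ?_
    · rintro k x y z ⟨e1, g1, g2⟩ ⟨e2, g3, g4⟩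
      rw [← e1] at g3 g4
      refine ⟨e1.trans e2, ?_, fun i => ?_⟩
      · have e : N z - N x - ((k + 1 : ℕ) : ℝ) * u (D x) =
            (N y - N x - k * u (D x)) + (N z - N y - u (D x)) := by
          push_cast; ring
        rw [e]
        refine (abs_add_le _ _).trans ?_
        push_cast
        linarith
      · have e : A z i - A x i = (A y i - A x i) + (A z i - A y i) := by ring
        rw [e]
        refine (abs_add_le _ _).trans ?_
        have := g2 i
        have := g4 i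
        push_cast
        linarith
    · have : ((k : ℕ) : ℝ) ≤ n := by exact_mod_cast k.2.le
      exact mul_le_mul_of_nonneg_right this hε
  have hkc : ∀ (k : Fin n) (x : Ω) (r : ℝ), 0 < r → n * c (D x) ≤ r → (k : ℕ) * c (D x) ≤ r := by
    intro k x r hr h2
    rcases le_total (c (D x)) 0 with hc' | hc'
    · have : ((k : ℕ) : ℝ) * c (D x) ≤ 0 :=
        mul_nonpos_of_nonneg_of_nonpos (Nat.cast_nonneg _) hc'
      linarith
    · have hk : ((k : ℕ) : ℝ) ≤ n := by exact_mod_cast k.2.le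
      exact (mul_le_mul_of_nonneg_right hk hc').trans h2
  have hL0 : ∀ x, 0 < P.w x → 0 < L := by
    intro x hx
    have h1 := hL x hx
    have h2 := hu x hx
    have h3 : (0 : ℝ) < n := by exact_mod_cast hn
    have h4 : 0 < (n : ℝ) * |u (D x)| := mul_pos h3 (hl.trans_le h2)
    linarith
  have hsp := spread P (K := Fin n) _ (fun _ => n * ε) hit (fun ω => ⌊N ω / l⌋)
    (fun ω => (⌊N ω / L⌋, (fun i => ⌊A ω i / s i⌋), D ω)) 4 (5 * 3 ^ Fintype.card ι) ?_ ?_
  · have hn' : (0 : ℝ) < n := by exact_mod_cast hn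
    have e1 : (∑ _k : Fin n, (n : ℝ) * ε) / (Fintype.card (Fin n) : ℝ) = n * ε := by
      rw [Finset.sum_const, Finset.card_univ, Fintype.card_fin, nsmul_eq_mul,
        mul_div_cancel_left₀ _ hn'.ne']
    rw [e1, Fintype.card_fin] at hsp
    exact_mod_cast hsp
  · intro x y hx hy
    have hux := hu x hx
    have hu0 : 0 < |u (D x)| := hl.trans_le hux
    obtain ⟨t, ht1, ht2⟩ := card_idx_le (n := n) (u := u (D x)) (ρ := 3 * l)
      (x := ⌊N y / l⌋ * l - N x - l) (N := 4) hu0 (by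
        push_cast
        have : 3 * l / |u (D x)| ≤ 3 := by
          rw [div_le_iff₀ hu0]; linarith
        linarith)
    refine ⟨t, ht1, fun k y' hy' hR' hf => ht2 k ?_ ?_⟩
    · have h1 := (abs_le.1 hR'.2.1).2
      have h2 := hkc k x l hl (hc0 x hx)
      have h3 : (⌊N y / l⌋ : ℝ) * l ≤ N y' := by
        rw [← hf]
        have := Int.floor_le (N y' / l)
        rwa [le_div_iff₀ hl] at this
      linarith
    · have h1 := (abs_le.1 hR'.2.1).1
      have h2 := hkc k x l hl (hc0 x hx)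
      have h3 : N y' < (⌊N y / l⌋ + 1 : ℝ) * l := by
        rw [← hf]
        have := Int.lt_floor_add_one (N y' / l)
        rwa [div_lt_iff₀ hl] at this
      linarith
  · intro x hx
    have hLx := hL0 x hx
    -- the values of the coarse digit of `N`
    refine ⟨((Finset.Icc (⌊N x / L⌋ - 2) (⌊N x / L⌋ + 2)) ×ˢ
      ((Fintype.piFinset fun i => Finset.Icc (⌊A x i / s i⌋ - 1) (⌊A x i / s i⌋ + 1)) ×ˢ {D x})),
      ?_, fun k y hy hR' => ?_⟩
    · rw [Finset.card_product, Finset.card_product, Fintype.card_piFinset, Finset.card_singleton]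
      simp only [Int.card_Icc]
      refine Nat.mul_le_mul ?_ ?_
      · omega
      · rw [mul_one]
        have : ∀ i : ι, (⌊A x i / s i⌋ + 1 + 1 - (⌊A x i / s i⌋ - 1)).toNat = 3 := fun i => by omega
        simp [this]
    · have g1 : |N y - N x| ≤ 2 * L := by
        have h1 := hR'.2.1
        have h2 := hkc k x l hl (hc0 x hx)
        have h3 : |(k : ℕ) * u (D x)| ≤ L := by
          rw [abs_mul, Nat.abs_cast]
          have hk : ((k : ℕ) : ℝ) ≤ n := by exact_mod_cast k.2.le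
          exact (mul_le_mul_of_nonneg_right hk (abs_nonneg _)).trans (hL x hx)
        have h4 : l ≤ L := by
          have h5 := hu x hx
          have h6 := hL x hx
          have h7 : (1 : ℝ) ≤ n := by exact_mod_cast hn
          nlinarith [abs_nonneg (u (D x))]
        have e : N y - N x = (N y - N x - (k : ℕ) * u (D x)) + (k : ℕ) * u (D x) := by ring
        rw [e]
        refine (abs_add_le _ _).trans ?_
        linarith
      rw [Finset.mem_product, Finset.mem_product, Fintype.mem_piFinset]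
      refine ⟨?_, fun i => ?_, ?_⟩
      · have h1 := (abs_le.1 g1).1
        have h2 := (abs_le.1 g1).2
        have h3 : N y / L ≤ N x / L + 2 := by
          rw [div_add' _ _ _ hLx.ne']
          exact (div_le_div_iff_of_pos_right hLx).2 (by linarith)
        have h4 : N x / L - 2 ≤ N y / L := by
          rw [div_sub' hLx.ne']
          exact (div_le_div_iff_of_pos_right hLx).2 (by linarith)
        simp only [Finset.mem_Icc]
        constructor
        · rw [Int.le_floor]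
          push_cast
          have := Int.floor_le (N x / L)
          linarith
        · have h5 : ⌊N y / L⌋ ≤ ⌊N x / L + 2⌋ := Int.floor_le_floor h3
          rw [show (2 : ℝ) = ((2 : ℤ) : ℝ) by norm_num, Int.floor_add_intCast] at h5
          exact h5
      · exact floor_near (hs i) ((hR'.2.2 i).trans (hkc k x (s i) (hs i) (hcs x hx i)))
      · simp only [Finset.mem_singleton]
        exact hR'.1.symm

end laws

end Vale.Agent.P106.U.H875
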