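import Vale.Agent.P106.TV.MStepGL
import Vale.Agent.P127.U.Mic.Colp2

/-!
# P106 / U / H875 : nondegeneracy of the copies of `mstepGL` (helper875)

* `Sl κ₂ κ₃`, `pick` : the copies `ω`, `z i`, `y j` of the average `avG`.
* `av_pick` : the average of a function of two different copies is `av2`.
* `nond_union` : if the weight is `1` outside of finitely many bad events of pairs of copies, then `avG` is at least
  `1 -` the sum of the probabilities of the bad events.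
* `nond3` : the displacements `(S x, S x²/2, S G x)`, three copies of `x`, two copies of `(S, G)`.
* `nond2` : the displacements `(S x, S x²/2)`, three copies of `x`, one copy of `S`.
-/

set_option autoImplicit false
set_option linter.unusedSectionVars false

namespace Vale.Agent.P106.U.H875

open Finset Vale.Agent.P127 Vale.Agent.P127.Stk Vale.Agent.P127.U.Pin Vale.Agent.P127.TV
open Vale.Agent.P127.U.Mic Vale.Agent.P106.TV

variable {Ω : Type} [Fintype Ω] {S U V X : Type*}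

/-- Fubini for laws -/
theorem ex_comm {Ω₁ Ω₂ : Type} [Fintype Ω₁] [Fintype Ω₂] (R : Law Ω₁) (R' : Law Ω₂)
    (f : Ω₁ → Ω₂ → ℝ) :
    R.ex (fun a => R'.ex (fun b => f a b)) = R'.ex (fun b => R.ex (fun a => f a b)) := by
  unfold Law.ex
  simp only [Finset.mul_sum]
  rw [Finset.sum_comm]
  exact Finset.sum_congr rfl fun b _ => Finset.sum_congr rfl fun a _ => by ring

/-- the two copies are exchangeable -/
theorem av2_symm (P : Law Ω) (D : Ω → U) (f : Ω → Ω → ℝ) :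
    av2 P D (fun a b => f b a) = av2 P D f := by
  rw [← av_shift P D f, ← av_shift P D (fun a b => f b a)]
  exact P.ex_congr fun ω _ => ex_comm _ _ _

section pick

variable {κ₂ κ₃ : Type} [Fintype κ₂] [DecidableEq κ₂] [Fintype κ₃] [DecidableEq κ₃]

/-- the names of the copies -/
inductive Sl (κ₂ κ₃ : Type) where
  | o : Sl κ₂ κ₃
  | z : κ₂ → Sl κ₂ κ₃
  | y : κ₃ → Sl κ₂ κ₃

/-- the copies -/
def pick (ω : Ω) (z : κ₂ → Ω) (y : κ₃ → Ω) : Sl κ₂ κ₃ → Ω
  | .o => ω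
  | .z i => z i
  | .y j => y j

/-- the average over all the copies -/
noncomputable def avA (P : Law Ω) (D : Ω → U) (κ₂ κ₃ : Type) [Fintype κ₂] [DecidableEq κ₂]
    [Fintype κ₃] [DecidableEq κ₃] (f : Ω → (κ₂ → Ω) → (κ₃ → Ω) → ℝ) : ℝ :=
  P.ex fun ω => (cop (P.cond D (D ω)) κ₂).ex fun z => (cop (P.cond D (D ω)) κ₃).ex fun y => f ω z y

theorem avA_mono (P : Law Ω) (D : Ω → U) {f g : Ω → (κ₂ → Ω) → (κ₃ → Ω) → ℝ}
    (h : ∀ ω z y, 0 < P.w ω → (∀ i, 0 < P.w (z i) ∧ D (z i) = D ω) →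
      (∀ j, 0 < P.w (y j) ∧ D (y j) = D ω) → f ω z y ≤ g ω z y) :
    avA P D κ₂ κ₃ f ≤ avA P D κ₂ κ₃ g := by
  refine P.ex_mono fun ω p => ?_
  have hz := P.pr_pos D p
  refine Law.ex_mono _ fun z pz => Law.ex_mono _ fun y py => ?_
  refine h ω z y p (fun i => ?_) fun j => ?_
  · have := cond_supp P D hz (cop_supp pz i)
    exact ⟨this.2, this.1⟩
  · have := cond_supp P D hz (cop_supp py j)
    exact ⟨this.2, this.1⟩

theorem avA_sub (P : Law Ω) (D : Ω → U) (f g : Ω → (κ₂ → Ω) → (κ₃ → Ω) → ℝ) :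
    avA P D κ₂ κ₃ (fun a b c => f a b c - g a b c) = avA P D κ₂ κ₃ f - avA P D κ₂ κ₃ g := by
  unfold avA
  simp only [Law.ex_sub]

theorem avA_const (P : Law Ω) (D : Ω → U) (c : ℝ) : avA P D κ₂ κ₃ (fun _ _ _ => c) = c := by
  unfold avA
  simp only [Law.ex_const]

theorem ex_fsum {Ω₁ : Type} {β : Type*} [Fintype Ω₁] (R : Law Ω₁) (J : Finset β) (f : β → Ω₁ → ℝ) :
    R.ex (fun a => ∑ b ∈ J, f b a) = ∑ b ∈ J, R.ex (f b) := by
  unfold Law.ex
  rw [Finset.sum_comm]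
  exact Finset.sum_congr rfl fun y _ => by rw [Finset.mul_sum]

theorem avA_sum {β : Type*} (P : Law Ω) (D : Ω → U) (J : Finset β)
    (f : β → Ω → (κ₂ → Ω) → (κ₃ → Ω) → ℝ) :
    avA P D κ₂ κ₃ (fun a b c => ∑ j ∈ J, f j a b c) = ∑ j ∈ J, avA P D κ₂ κ₃ (f j) := by
  unfold avA
  rw [← ex_fsum]
  refine P.ex_congr fun ω _ => ?_
  rw [← ex_fsum]
  refine Law.ex_congr _ fun z _ => ?_
  rw [← ex_fsum]

/-- **two different copies** -/
theorem av_pick (P : Law Ω) (D : Ω → U) {s s' : Sl κ₂ κ₃} (hs : s ≠ s') (f : Ω → Ω → ℝ) :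
    avA P D κ₂ κ₃ (fun ω z y => f (pick ω z y s) (pick ω z y s')) = av2 P D f := by
  unfold avA
  match s, s', hs with
  | .o, .o, hs => exact absurd rfl hs
  | .o, .z i, _ =>
    unfold av2
    refine P.ex_congr fun ω _ => ?_
    simp only [pick, Law.ex_const]
    exact cop_ex1 _ i (fun ω' => f ω ω')
  | .o, .y j, _ =>
    unfold av2
    refine P.ex_congr fun ω _ => ?_
    simp only [pick, Law.ex_const]
    exact cop_ex1 _ j (fun ω' => f ω ω')
  | .z i, .o, _ =>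
    rw [← av2_symm]
    unfold av2
    refine P.ex_congr fun ω _ => ?_
    simp only [pick, Law.ex_const]
    exact cop_ex1 _ i (fun ω' => f ω' ω)
  | .y j, .o, _ =>
    rw [← av2_symm]
    unfold av2
    refine P.ex_congr fun ω _ => ?_
    simp only [pick, Law.ex_const]
    exact cop_ex1 _ j (fun ω' => f ω' ω)
  | .z i, .z j, hs =>
    rw [← av_shift P D f]
    refine P.ex_congr fun ω _ => ?_
    simp only [pick, Law.ex_const]
    exact cop_ex2 _ (fun h => hs (by rw [h])) f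
  | .y i, .y j, hs =>
    rw [← av_shift P D f]
    refine P.ex_congr fun ω _ => ?_
    simp only [pick, Law.ex_const]
    exact cop_ex2 _ (fun h => hs (by rw [h])) f
  | .z i, .y j, _ =>
    rw [← av_shift P D f]
    refine P.ex_congr fun ω _ => ?_
    simp only [pick]
    have h1 : ∀ z : κ₂ → Ω, (cop (P.cond D (D ω)) κ₃).ex (fun y => f (z i) (y j)) =
        (P.cond D (D ω)).ex (fun b => f (z i) b) := fun z => cop_ex1 _ j (fun b => f (z i) b)
    simp only [h1]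
    exact cop_ex1 _ i (fun a => (P.cond D (D ω)).ex (fun b => f a b))
  | .y j, .z i, _ =>
    rw [← av_shift P D f]
    refine P.ex_congr fun ω _ => ?_
    simp only [pick]
    have h1 : ∀ z : κ₂ → Ω, (cop (P.cond D (D ω)) κ₃).ex (fun y => f (y j) (z i)) =
        (P.cond D (D ω)).ex (fun b => f b (z i)) := fun z => cop_ex1 _ j (fun b => f b (z i))
    simp only [h1]
    rw [cop_ex1 _ i (fun a => (P.cond D (D ω)).ex (fun b => f b a))]
    exact ex_comm _ _ _

/-- **union bound** : the weight `χ` is `≥ 1` outside of the bad events `bad b` of the copies `s b`, `s' b` -/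
theorem nond_union {β : Type*} (P : Law Ω) (D : Ω → U) (Θ : Ω → V) (W : Ω → S) (e : U → S → X)
    (χ : U → V → (κ₂ → V) → (κ₃ → X) → ℝ) (hχ0 : ∀ d θ θs xs, 0 ≤ χ d θ θs xs)
    (J : Finset β) (s s' : β → Sl κ₂ κ₃) (hs : ∀ b ∈ J, s b ≠ s' b) (bad : β → Ω → Ω → Prop)
    (δ : β → ℝ) (hδ : ∀ b ∈ J, av2 P D (fun ω ω' => Law.ind (bad b ω ω')) ≤ δ b)
    (hχ : ∀ ω z y, 0 < P.w ω → (∀ i, 0 < P.w (z i) ∧ D (z i) = D ω) →
      (∀ j, 0 < P.w (y j) ∧ D (y j) = D ω) →
      (∀ b ∈ J, ¬ bad b (pick ω z y (s b)) (pick ω z y (s' b))) →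
      1 ≤ χ (D ω) (Θ ω) (fun i => Θ (z i)) (fun j => e (D ω) (W (y j)))) :
    1 - ∑ b ∈ J, δ b ≤ P.ex (avG P D Θ W e χ) := by
  have h1 : avA P D κ₂ κ₃ (fun ω z y => 1 - ∑ b ∈ J,
      Law.ind (bad b (pick ω z y (s b)) (pick ω z y (s' b)))) ≤
      avA P D κ₂ κ₃ (fun ω z y => χ (D ω) (Θ ω) (fun i => Θ (z i))
        (fun j => e (D ω) (W (y j)))) := by
    refine avA_mono P D fun ω z y p pz py => ?_
    by_cases h : ∀ b ∈ J, ¬ bad b (pick ω z y (s b)) (pick ω z y (s' b))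
    · have h2 := hχ ω z y p pz py h
      have h3 : 0 ≤ ∑ b ∈ J, Law.ind (bad b (pick ω z y (s b)) (pick ω z y (s' b))) :=
        Finset.sum_nonneg fun b _ => ind_nonneg _
      linarith
    · push Not at h
      obtain ⟨b, hb, hbad⟩ := h
      have h3 : (1 : ℝ) ≤ ∑ b ∈ J, Law.ind (bad b (pick ω z y (s b)) (pick ω z y (s' b))) := by
        have h4 := Finset.single_le_sum (s := J)
          (f := fun b => Law.ind (bad b (pick ω z y (s b)) (pick ω z y (s' b))))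
          (fun b _ => ind_nonneg _) hb
        have h5 : Law.ind (bad b (pick ω z y (s b)) (pick ω z y (s' b))) = 1 := Law.ind_of hbad
        linarith
      have := hχ0 (D ω) (Θ ω) (fun i => Θ (z i)) (fun j => e (D ω) (W (y j)))
      linarith
  rw [avA_sub P D (fun _ _ _ => 1), avA_const, avA_sum] at h1
  have h2 : ∑ b ∈ J, avA P D κ₂ κ₃ (fun ω z y =>
      Law.ind (bad b (pick ω z y (s b)) (pick ω z y (s' b)))) ≤ ∑ b ∈ J, δ b := by
    refine Finset.sum_le_sum fun b hb => ?_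
    rw [av_pick P D (hs b hb) (fun ω ω' => Law.ind (bad b ω ω'))]
    exact hδ b hb
  have h3 : avA P D κ₂ κ₃ (fun ω z y => χ (D ω) (Θ ω) (fun i => Θ (z i))
      (fun j => e (D ω) (W (y j)))) = P.ex (avG P D Θ W e χ) := rfl
  linarith

end pick

/-! ### the concrete weights -/

/-- the displacement of `(V, Z, N)` in the phi-regime -/
noncomputable def F3 (S' G : U → V → V → ℝ) (d : U) (θ θ' : V) (x : ℝ) (i : Fin 3) : ℝ :=
  (![S' d θ θ' * x, S' d θ θ' * (x ^ 2 / 2), S' d θ θ' * G d θ θ' * x] : Fin 3 → ℝ) i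

/-- the pairs of copies -/
def f3 (i : Fin 3) : Fin 2 × Fin 3 × Fin 3 := (![(0, 0, 1), (0, 0, 2), (1, 0, 1)] : Fin 3 → _) i

theorem f3_inj : Function.Injective f3 := by decide

theorem f3_ne (k : Fin 3) : (f3 k).2.1 ≠ (f3 k).2.2 := by revert k; decide

/-- the displacement of `(V, Z)` -/
noncomputable def F2 (S' : U → V → V → ℝ) (d : U) (θ θ' : V) (x : ℝ) (i : Fin 2) : ℝ :=
  (![S' d θ θ' * x, S' d θ θ' * (x ^ 2 / 2)] : Fin 2 → ℝ) i

/-- the pairs of copies -/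
def f2 (i : Fin 2) : Fin 1 × Fin 3 × Fin 3 := (![(0, 0, 1), (0, 0, 2)] : Fin 2 → _) i

theorem f2_inj : Function.Injective f2 := by decide

theorem f2_ne (k : Fin 2) : (f2 k).2.1 ≠ (f2 k).2.2 := by revert k; decide

theorem det3 (S' G : U → V → V → ℝ) (d : U) (θ : V) (θs : Fin 2 → V) (xs : Fin 3 → ℝ) :
    Matrix.det (Matrix.of (disp (F3 S' G) f3 d θ θs xs)) =
      S' d θ (θs 0) ^ 2 * S' d θ (θs 1) * (xs 0 - xs 1) ^ 2 * (xs 0 - xs 2) * (xs 2 - xs 1) *
        (G d θ (θs 1) - G d θ (θs 0)) / 2 := by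
  rw [Matrix.det_fin_three]
  simp [disp, F3, f3]
  ring

theorem det2 (S' : U → V → V → ℝ) (d : U) (θ : V) (θs : Fin 1 → V) (xs : Fin 3 → ℝ) :
    Matrix.det (Matrix.of (disp (F2 S') f2 d θ θs xs)) =
      S' d θ (θs 0) ^ 2 * (xs 0 - xs 1) * (xs 0 - xs 2) * (xs 2 - xs 1) / 2 := by
  rw [Matrix.det_fin_two]
  simp [disp, F2, f2]
  ring

end Vale.Agent.P106.U.H875
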